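import Vale.Agent.P146.H758.Box

/-!
# P146: the law for the lower side of the grid (helper457), bookkeeping

`N + 4` levels: `1`: exponent `0.51 u`, bonds `1 - S u²` | `2, …, N + 2`: the bundle, exponents from
`u (1 - q)` to `u` in `N` equal steps, bonds `(S - T) u²` on the level `2` | `N + 3`: `v u`, bonds
`(T - T1) u²`, field `w u³` | `N + 4`: `z u`, bonds `T1 u²`.  White fields on the levels
`1, …, N + 2`.
-/

open MeasureTheory ProbabilityTheory

namespace Vale.Agent.P146.H457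

open Vale.Agent.P157 Vale.Agent.P157.Lv Vale.Agent.P157.Lv.Sy
open Vale.Agent.P146.H93 (Cd skS Em)
open Vale.Agent.P146.H186 (amp amp_mem)
open Vale.Agent.P146.H758 (tv Ex2)

/-! ### sums of one peak -/

/-- one peak -/
def pk (i : ℕ) (c : ℝ) (l : ℕ) : ℝ := if l = i then c else 0

lemma sum_pk {i L : ℕ} (c : ℝ) (hi : 1 ≤ i) :
    ∑ j ∈ Finset.range L, pk i c (j + 1) = if i ≤ L then c else 0 := by
  unfold pk
  have e : ∀ j, (j + 1 = i) = (j = i - 1) := fun j => by
    rw [eq_iff_iff]; omega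
  simp only [e]
  rw [Finset.sum_ite_eq']
  simp only [Finset.mem_range]
  by_cases h : i ≤ L
  · rw [if_pos h, if_pos (by omega)]
  · rw [if_neg h, if_neg (by omega)]

lemma sum_pk_Ico {i a L : ℕ} (c : ℝ) :
    ∑ j ∈ Finset.Ico a L, pk i c j = if a ≤ i ∧ i < L then c else 0 := by
  unfold pk
  rw [Finset.sum_ite_eq']
  simp only [Finset.mem_Ico]

/-! ### the exponents -/

/-- the exponents -/
noncomputable def mB (N : ℕ) (u v z q : ℝ) (l : ℕ) : ℝ :=
  if l = 0 then 0 else if l = 1 then 51 / 100 * u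
  else if l ≤ N + 2 then u * (1 - q * ((N + 2 - l) / N))
  else if l = N + 3 then v * u else if l = N + 4 then z * u else 1

variable {n N l : ℕ} {β u v z q S T T1 w : ℝ}

lemma mB_zero : mB N u v z q 0 = 0 := rfl

lemma mB_one : mB N u v z q 1 = 51 / 100 * u := rfl

lemma mB_mid (h2 : 2 ≤ l) (hl : l ≤ N + 2) :
    mB N u v z q l = u * (1 - q * ((N + 2 - l) / N)) := by
  unfold mB
  rw [if_neg (by omega), if_neg (by omega), if_pos hl]

lemma mB_two (hN : 0 < N) : mB N u v z q 2 = u * (1 - q) := by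
  have hN' : (N : ℝ) ≠ 0 := by exact_mod_cast hN.ne'
  rw [mB_mid le_rfl (by omega)]
  push_cast
  field_simp
  ring

lemma mB_g : mB N u v z q (N + 2) = u := by
  rw [mB_mid (by omega) le_rfl]
  push_cast
  ring

lemma mB_v : mB N u v z q (N + 3) = v * u := by
  unfold mB
  rw [if_neg (by omega), if_neg (by omega), if_neg (by omega), if_pos rfl]

lemma mB_z : mB N u v z q (N + 4) = z * u := by
  unfold mB
  rw [if_neg (by omega), if_neg (by omega), if_neg (by omega), if_neg (by omega), if_pos rfl]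

lemma mB_top : mB N u v z q (N + 4 + 1) = 1 := by
  unfold mB
  rw [if_neg (by omega), if_neg (by omega), if_neg (by omega), if_neg (by omega),
    if_neg (by omega)]

lemma mB_step (h2 : 2 ≤ l) (hl : l + 1 ≤ N + 2) :
    mB N u v z q (l + 1) - mB N u v z q l = u * q / N := by
  have hN' : (N : ℝ) ≠ 0 := by
    have : N ≠ 0 := by omega
    exact_mod_cast this
  rw [mB_mid h2 (by omega), mB_mid (by omega) hl]
  push_cast
  field_simp
  ring

/-- the numbers of the exponents are admissible -/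
structure Adm (N : ℕ) (u v z q : ℝ) : Prop where
  N2 : 2 ≤ N
  u0 : 0 < u
  q0 : 0 < q
  q1 : q ≤ 1 / 4
  v1 : 1 ≤ v
  vz : v ≤ z
  zu : z * u ≤ 1

namespace Adm

variable (H : Adm N u v z q)

include H

lemma N0 : (0 : ℝ) < N := by
  have := H.N2
  exact_mod_cast (show 0 < N by omega)

lemma st0 : 0 < u * q / N := by
  have h1 := H.N0
  have h2 := H.u0
  have h3 := H.q0
  positivity

/-- the exponents of the bundle are in `[u (1 - q), u]` -/
lemma mid (h2 : 2 ≤ l) (hl : l ≤ N + 2) :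
    u * (1 - q) ≤ mB N u v z q l ∧ mB N u v z q l ≤ u := by
  have hN := H.N0
  have hu := H.u0
  have hq := H.q0
  have h1 : (2 : ℝ) ≤ l := by exact_mod_cast h2
  have h3 : (l : ℝ) ≤ N + 2 := by exact_mod_cast hl
  have f0 : 0 ≤ ((N + 2 - l : ℝ) / N) := div_nonneg (by linarith) hN.le
  have f1 : ((N + 2 - l : ℝ) / N) ≤ 1 := by
    rw [div_le_one hN]
    linarith
  rw [mB_mid h2 hl]
  constructor
  · refine mul_le_mul_of_nonneg_left ?_ hu.le
    have := mul_le_mul_of_nonneg_left f1 hq.le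
    linarith
  · have h2 : u * (1 - q * ((N + 2 - l) / N)) ≤ u * 1 :=
      mul_le_mul_of_nonneg_left (by
        have := mul_nonneg hq.le f0
        linarith) hu.le
    linarith

lemma em : Em (N + 4) (mB N u v z q) where
  m0 := mB_zero
  mK := mB_top
  pos := by
    rw [mB_one]
    have := H.u0
    positivity
  mono := fun l hl => by
    have hu := H.u0
    have hq := H.q1
    rcases Nat.lt_or_ge l 2 with h | h
    · interval_cases l
      · rw [mB_zero, mB_one]
        positivity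
      · rw [mB_one]
        refine le_trans ?_ (H.mid (l := 2) le_rfl (by omega)).1
        have := mul_le_mul_of_nonneg_left hq hu.le
        linarith
    · rcases Nat.lt_or_ge l (N + 2) with h1 | h1
      · have h2 := mB_step (N := N) (u := u) (v := v) (z := z) (q := q) h h1
        have h3 := H.st0
        linarith
      · rcases Nat.lt_or_ge l (N + 3) with h2 | h2
        · have e : l = N + 2 := by omega
          subst e
          rw [mB_g, show N + 2 + 1 = N + 3 by omega, mB_v]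
          have := mul_le_mul_of_nonneg_right H.v1 hu.le
          linarith
        · rcases Nat.lt_or_ge l (N + 4) with h3 | h3
          · have e : l = N + 3 := by omega
            subst e
            rw [mB_v, show N + 3 + 1 = N + 4 by omega, mB_z]
            exact mul_le_mul_of_nonneg_right H.vz hu.le
          · have e : l = N + 4 := by omega
            subst e
            rw [mB_z, mB_top]
            exact H.zu

lemma ex2 : Ex2 (N + 4) (mB N u v z q) (51 / 100 * u) (z * u) where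
  em := H.em
  K1 := by omega
  y0 := by
    have := H.u0
    positivity
  Y1 := H.zu
  ge := by rw [mB_one]
  le := by rw [mB_z]

end Adm

/-! ### the bonds -/

/-- the amplitudes of the bonds -/
noncomputable def bB (n N : ℕ) (β u S T T1 : ℝ) (l : ℕ) : ℝ :=
  if l = 1 then β / √n * √(1 - S * u ^ 2) else if l = 2 then β / √n * √((S - T) * u ^ 2)
  else if l = N + 3 then β / √n * √((T - T1) * u ^ 2)
  else if l = N + 4 then β / √n * √(T1 * u ^ 2) else 0

/-- the shares are admissible -/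
structure Shr (u S T T1 : ℝ) : Prop where
  Su : S * u ^ 2 ≤ 1
  TS : T ≤ S
  T1T : T1 ≤ T
  T10 : 0 ≤ T1

lemma bB_sq (hn : 0 < n) (h : Shr u S T T1) (l : ℕ) :
    bB n N β u S T T1 l ^ 2 = pk 1 (β ^ 2 / n * (1 - S * u ^ 2)) l +
      pk 2 (β ^ 2 / n * ((S - T) * u ^ 2)) l + pk (N + 3) (β ^ 2 / n * ((T - T1) * u ^ 2)) l +
      pk (N + 4) (β ^ 2 / n * (T1 * u ^ 2)) l := by
  have hn' : (0 : ℝ) < n := by exact_mod_cast hn
  have key : ∀ x : ℝ, 0 ≤ x → (β / √n * √x) ^ 2 = β ^ 2 / n * x := by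
    intro x hx
    rw [mul_pow, div_pow, Real.sq_sqrt hn'.le, Real.sq_sqrt hx]
  have u2 : 0 ≤ u ^ 2 := sq_nonneg u
  have h1 := h.Su
  have h2 := h.TS
  have h3 := h.T1T
  have h5 := h.T10
  have k1 := key (1 - S * u ^ 2) (by linarith)
  have k2 := key ((S - T) * u ^ 2) (mul_nonneg (by linarith) u2)
  have k4 := key ((T - T1) * u ^ 2) (mul_nonneg (by linarith) u2)
  have k5 := key (T1 * u ^ 2) (mul_nonneg h5 u2)
  unfold bB pk
  by_cases c1 : l = 1
  · subst c1
    rw [if_pos rfl, if_pos rfl, if_neg (by omega), if_neg (by omega), if_neg (by omega), k1]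
    ring
  by_cases c2 : l = 2
  · subst c2
    rw [if_neg (by omega), if_pos rfl, if_neg (by omega), if_pos rfl, if_neg (by omega),
      if_neg (by omega), k2]
    ring
  by_cases c4 : l = N + 3
  · rw [if_neg c1, if_neg c2, if_pos c4, if_neg c1, if_neg c2, if_pos c4, if_neg (by omega), k4]
    ring
  by_cases c5 : l = N + 4
  · rw [if_neg c1, if_neg c2, if_neg c4, if_pos c5, if_neg c1, if_neg c2, if_neg c4, if_pos c5,
      k5]
    ring
  · rw [if_neg c1, if_neg c2, if_neg c4, if_neg c5, if_neg c1, if_neg c2, if_neg c4, if_neg c5]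
    ring

lemma sum_bB (hn : 0 < n) (h : Shr u S T T1) (l : ℕ) :
    ∑ j ∈ Finset.range l, bB n N β u S T T1 (j + 1) ^ 2 =
      (if 1 ≤ l then β ^ 2 / n * (1 - S * u ^ 2) else 0) +
      (if 2 ≤ l then β ^ 2 / n * ((S - T) * u ^ 2) else 0) +
      (if N + 3 ≤ l then β ^ 2 / n * ((T - T1) * u ^ 2) else 0) +
      (if N + 4 ≤ l then β ^ 2 / n * (T1 * u ^ 2) else 0) := by
  simp only [bB_sq hn h, Finset.sum_add_distrib]
  rw [sum_pk _ le_rfl, sum_pk _ (by omega), sum_pk _ (by omega), sum_pk _ (by omega)]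

lemma sum_bB_Ico (hn : 0 < n) (h : Shr u S T T1) (a l : ℕ) :
    ∑ j ∈ Finset.Ico a l, bB n N β u S T T1 j ^ 2 =
      (if a ≤ 1 ∧ 1 < l then β ^ 2 / n * (1 - S * u ^ 2) else 0) +
      (if a ≤ 2 ∧ 2 < l then β ^ 2 / n * ((S - T) * u ^ 2) else 0) +
      (if a ≤ N + 3 ∧ N + 3 < l then β ^ 2 / n * ((T - T1) * u ^ 2) else 0) +
      (if a ≤ N + 4 ∧ N + 4 < l then β ^ 2 / n * (T1 * u ^ 2) else 0) := by
  simp only [bB_sq hn h, Finset.sum_add_distrib, sum_pk_Ico]

lemma tv_bB (hn : 0 < n) (h : Shr u S T T1) :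
    tv (N + 4) (bB n N β u S T T1) = β ^ 2 / n := by
  unfold tv
  rw [sum_bB hn h, if_pos (by omega), if_pos (by omega), if_pos (by omega), if_pos (by omega)]
  ring

/-- the bonds below the bundle -/
lemma sum_two (hn : 0 < n) (h : Shr u S T T1) :
    ∑ j ∈ Finset.Icc 1 2, bB n N β u S T T1 j ^ 2 = β ^ 2 / n * (1 - T * u ^ 2) := by
  have e : Finset.Icc 1 2 = Finset.Ico 1 3 := by
    ext j
    simp only [Finset.mem_Icc, Finset.mem_Ico]
    omega
  rw [e, sum_bB_Ico hn h, if_pos (by omega), if_pos (by omega), if_neg (by omega),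
    if_neg (by omega)]
  ring

/-- the bonds above the level `1` -/
lemma sum_up_one (hn : 0 < n) (h : Shr u S T T1) :
    ∑ j ∈ Finset.Ico (1 + 1) (N + 4 + 1), bB n N β u S T T1 j ^ 2 = β ^ 2 / n * (S * u ^ 2) := by
  rw [sum_bB_Ico hn h, if_neg (by omega), if_pos (by omega), if_pos (by omega), if_pos (by omega)]
  ring

/-- the bonds above the bundle -/
lemma sum_up (hn : 0 < n) (h : Shr u S T T1) (h2 : 2 ≤ l) (hl : l ≤ N + 2) :
    ∑ j ∈ Finset.Ico (l + 1) (N + 4 + 1), bB n N β u S T T1 j ^ 2 = β ^ 2 / n * (T * u ^ 2) := by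
  rw [sum_bB_Ico hn h, if_neg (by omega), if_neg (by omega), if_pos (by omega), if_pos (by omega)]
  ring

lemma bB_nonneg (hβ : 0 ≤ β) (l : ℕ) : 0 ≤ bB n N β u S T T1 l := by
  unfold bB
  split_ifs <;> positivity

lemma bB_mid {l : ℕ} (h2 : 2 < l) (hl : l ≤ N + 2) : bB n N β u S T T1 l = 0 := by
  unfold bB
  rw [if_neg (by omega), if_neg (by omega), if_neg (by omega), if_neg (by omega)]

/-! ### the fields -/

/-- the amplitudes of the main field -/
noncomputable def wB (N : ℕ) (u w : ℝ) (l : ℕ) : ℝ :=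
  if l = N + 3 then √(w * u ^ 3) else 0

/-- the levels with a white field -/
def PB (N : ℕ) : Finset ℕ := Finset.Icc 1 (N + 2)

lemma mem_PB {p : ℕ} : p ∈ PB N ↔ 1 ≤ p ∧ p ≤ N + 2 := by
  unfold PB
  rw [Finset.mem_Icc]

lemma card_PB : (PB N).card = N + 2 := by
  unfold PB
  rw [Nat.card_Icc]
  omega

lemma PB_K : ∀ p ∈ PB N, 1 ≤ p ∧ p ≤ N + 4 := fun p hp => by
  have := mem_PB.1 hp
  omega

lemma wB_nonneg (l : ℕ) : 0 ≤ wB N u w l := by
  unfold wB
  split_ifs <;> positivity

lemma wB_sq (hu : 0 ≤ u) (hw : 0 ≤ w) (l : ℕ) : wB N u w l ^ 2 = pk (N + 3) (w * u ^ 3) l := by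
  have h2 : 0 ≤ w * u ^ 3 := by positivity
  unfold wB pk
  by_cases c1 : l = N + 3
  · rw [if_pos c1, if_pos c1, Real.sq_sqrt h2]
  · rw [if_neg c1, if_neg c1]
    ring

/-- the main field outside the bundle -/
lemma rst_wB (hu : 0 ≤ u) (hw : 0 ≤ w) :
    H758.rst (N + 4) (wB N u w) (PB N) = w * u ^ 3 := by
  have h0 : H758.rst (N + 4) (wB N u w) (PB N) = tv (N + 4) (wB N u w) := by
    rw [H758.tv_Icc]
    unfold H758.rst
    rw [Finset.sum_filter]
    refine Finset.sum_congr rfl fun j hj => ?_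
    by_cases h : j ∈ PB N
    · rw [if_neg (not_not.2 h)]
      have h1 := mem_PB.1 h
      unfold wB
      rw [if_neg (by omega)]
      ring
    · rw [if_pos h]
  rw [h0]
  unfold tv
  simp only [wB_sq hu hw]
  rw [sum_pk _ (by omega), if_pos (by omega)]

section fields

variable {V : {p // p ∈ PB N} → ℝ}

/-- the amplitudes of all fields -/
noncomputable def aB (N : ℕ) (u w : ℝ) (V : {p // p ∈ PB N} → ℝ) : ℕ → ℝ :=
  amp (wB N u w) (PB N) V

lemma aB_mem (p : {p // p ∈ PB N}) : aB N u w V p = √(V p) := amp_mem _ _ _ _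

lemma aB_not {p : ℕ} (h : p ∉ PB N) : aB N u w V p = wB N u w p := by
  unfold aB amp
  rw [dif_neg h]

lemma aB_nonneg (l : ℕ) : 0 ≤ aB N u w V l := by
  by_cases h : l ∈ PB N
  · have := aB_mem (u := u) (w := w) (V := V) ⟨l, h⟩
    rw [this]
    positivity
  · rw [aB_not h]
    exact wB_nonneg l

lemma aB_pos (hV : ∀ p, 0 < V p) {p : ℕ} (h : p ∈ PB N) : 0 < aB N u w V p := by
  have := aB_mem (u := u) (w := w) (V := V) ⟨p, h⟩
  rw [this]
  exact Real.sqrt_pos.2 (hV _)

lemma aB_v : aB N u w V (N + 3) = √(w * u ^ 3) := by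
  rw [aB_not (by rw [mem_PB]; omega)]
  unfold wB
  rw [if_pos rfl]

lemma tv_aB (hu : 0 ≤ u) (hw : 0 ≤ w) (hV : ∀ p, 0 ≤ V p) :
    tv (N + 4) (aB N u w V) = ∑ p, V p + w * u ^ 3 := by
  unfold aB
  rw [H758.tv_amp (wB N u w) PB_K hV, rst_wB hu hw]

end fields

end Vale.Agent.P146.H457
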