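import Vale.Agent.P146.H457.IntL0
import Vale.Agent.P146.H758.Ent
import Vale.Agent.P146.H479.AGN
import Vale.Agent.P146.H479.ThUp
import Vale.Agent.P146.H498.LNum

/-!
# P146: the row of the law of the lower grid (helper457)

* `Tq_le`: `Θ_l ≤ u² (16 D0 / (β² t) + 1 / (n u²))` from the local energy `D0 n u⁵`, `t u²` = share
  of the bonds above the level `l`.
* `sel`: the fields of the bundle with all responses near `n / β` and small `gg`.
* `row`: the row inequality in unit letters.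
-/

set_option linter.all false

open MeasureTheory ProbabilityTheory

namespace Vale.Agent.P146.H457

open Vale.Agent.P157 Vale.Agent.P157.Lv Vale.Agent.P157.Lv.Sy
open Vale.Agent.P146.H425 Vale.Agent.P146.H325
open Vale.Agent.P146.H93 (Cd skS Em)
open Vale.Agent.P146.H186 (amp amp_mem cSK wc)
open Vale.Agent.P146.H758
open Vale.Agent.P146.H479
open Vale.Agent.P146.H295 (gg Th spn zs zs_eq)
open Vale.Agent.P146.H498.MRow (eSKL eLN lside_unit)

/-- `Θ` from the local energy -/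
theorem Tq_le {n K l : ℕ} {m b w : ℕ → ℝ} {β y Y u D0 t : ℝ} (hn : 0 < n) (hβ : 0 < β)
    (hu : 0 < u) (h : Ex2 K m y Y) (hY : m K + u / 4 ≤ Y) (hb : Na K b) (hw : Na K w)
    (hbt : tv K b = β ^ 2 / n)
    (hD : Pu n β Y (tv K w) ≤ (skS n K m b w).fe + D0 * (n * u ^ 5)) (hl : l ≤ K) (ht : 0 < t)
    (hB : β ^ 2 / n * (t * u ^ 2) ≤ ∑ i ∈ Finset.Ico (l + 1) (K + 1), b i ^ 2) :
    Tq n K m b w l ≤ u ^ 2 * (16 * D0 / (β ^ 2 * t) + 1 / (n * u ^ 2)) := by
  have hn' : (0 : ℝ) < n := by exact_mod_cast hn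
  have hK1 := h.K1
  obtain ⟨m', hm'd⟩ : ∃ m' : ℕ → ℝ, m' = fun j => if j ≤ l then m j else
    if j ≤ K then m j + u / 4 else 1 := ⟨_, rfl⟩
  have e1 : ∀ j, j ≤ l → m' j = m j := fun j hj => by rw [hm'd]; simp [hj]
  have e2 : ∀ j, l < j → j ≤ K → m' j = m j + u / 4 := fun j hj hj' => by
    rw [hm'd]
    simp [Nat.not_le.2 hj, hj']
  have e3 : m' (K + 1) = 1 := by
    rw [hm'd]
    have h1 : ¬ K + 1 ≤ l := by omega
    simp [h1]
  have hmY : ∀ j, 1 ≤ j → j ≤ K → m' j ≤ Y := by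
    intro j h1 h2
    have h3 := H758.em_mono h.em h2 (by omega)
    rcases Nat.lt_or_ge l j with h4 | h4
    · rw [e2 j h4 h2]
      linarith
    · rw [e1 j h4]
      linarith
  have hm' : Em K m' := by
    refine ⟨?_, e3, fun j hj => ?_, ?_⟩
    · rw [e1 0 (by omega)]
      exact h.em.m0
    · rcases Nat.lt_or_ge l j with h4 | h4
      · rcases Nat.lt_or_ge j K with h5 | h5
        · rw [e2 j h4 hj, e2 (j + 1) (by omega) (by omega)]
          linarith [h.em.mono j hj]
        · have : j = K := by omega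
          subst this
          rw [e2 j h4 le_rfl, e3]
          linarith [h.Y1]
      · rw [e1 j h4]
        rcases Nat.lt_or_ge j l with h5 | h5
        · rw [e1 (j + 1) (by omega)]
          exact h.em.mono j hj
        · have : j = l := by omega
          subst this
          rcases Nat.lt_or_ge j K with h6 | h6
          · rw [e2 (j + 1) (by omega) (by omega)]
            linarith [h.em.mono j hj]
          · have : j = K := by omega
            subst this
            rw [e3]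
            have := h.em.mono j le_rfl
            rwa [h.em.mK] at this
    · rcases Nat.lt_or_ge l 1 with h4 | h4
      · rw [e2 1 h4 hK1]
        linarith [h.em.pos]
      · rw [e1 1 h4]
        exact h.em.pos
  have hpos : Pm m' 0 K := fun j h1 h2 => by
    have h3 := h.yj (show 1 ≤ j by omega) (show j ≤ K by omega)
    have h4 := h.y0
    rcases Nat.lt_or_ge l j with h5 | h5
    · rw [e2 j h5 (by omega)]
      linarith
    · rw [e1 j h5]
      linarith
  have hinc := fe_inc_le h hβ.le hbt hD hpos hmY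
  have ht2 : 0 < t * u ^ 2 := by positivity
  have h5 := Tq_up hn h.em hm' hb hw (l := l) (δ := u / 4) (B := β ^ 2 / n * (t * u ^ 2))
    (fun j h1 h2 => by
      rcases Nat.lt_or_ge l j with h4 | h4
      · rw [e2 j h4 h2]
        linarith
      · rw [e1 j h4]) hl (by positivity) (by positivity)
    (fun j h1 h2 => by rw [e2 j h1 h2]; linarith) hB
  refine h5.trans ?_
  have h6 : 4 * ((skS n K m' b w).fe - (skS n K m b w).fe) / (n ^ 2 * (u / 4) *
      (β ^ 2 / n * (t * u ^ 2))) ≤ 4 * (D0 * (n * u ^ 5)) / (n ^ 2 * (u / 4) *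
      (β ^ 2 / n * (t * u ^ 2))) := by
    refine div_le_div_of_nonneg_right ?_ (by positivity)
    linarith
  have h7 : 4 * (D0 * (n * u ^ 5)) / (n ^ 2 * (u / 4) *
      (β ^ 2 / n * (t * u ^ 2))) = u ^ 2 * (16 * D0 / (β ^ 2 * t)) := by
    field_simp
    ring
  have h8 : (1 : ℝ) / n = u ^ 2 * (1 / (n * u ^ 2)) := by
    field_simp
  rw [h8]
  rw [h7] at h6
  linarith

variable {n N l : ℕ} {β u v z q S T τ w κ1 κp B V1 A D0 : ℝ}

/-- the centre of the box -/
noncomputable def cB (N : ℕ) (u κ1 κp : ℝ) (p : {p // p ∈ PB N}) : ℝ :=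
  if (p : ℕ) = 1 then κ1 * u ^ 3 else κp * u ^ 3

lemma cB_ge (hκ : κp ≤ κ1) (hu : 0 ≤ u) (p : {p // p ∈ PB N}) :
    κp * u ^ 3 ≤ cB N u κ1 κp p := by
  have hu3 : 0 ≤ u ^ 3 := by positivity
  unfold cB
  split_ifs
  · exact mul_le_mul_of_nonneg_right hκ hu3
  · exact le_rfl

lemma sum_cB (hκ1 : 0 ≤ κ1) (hκp : 0 ≤ κp) (hu : 0 ≤ u) :
    ∑ p : {p // p ∈ PB N}, (cB N u κ1 κp p + 2 * (κp * u ^ 3 / 4)) ≤
      (κ1 + 2 * (N + 2) * κp) * u ^ 3 := by
  have hu3 : 0 ≤ u ^ 3 := by positivity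
  have h1 : ∀ p : {p // p ∈ PB N}, cB N u κ1 κp p + 2 * (κp * u ^ 3 / 4) ≤
      (if (p : ℕ) = 1 then κ1 * u ^ 3 else 0) + 2 * (κp * u ^ 3) := by
    intro p
    have h2 : 0 ≤ κp * u ^ 3 := by positivity
    unfold cB
    split_ifs <;> linarith
  refine (Finset.sum_le_sum fun p _ => h1 p).trans ?_
  rw [Finset.sum_add_distrib, Finset.sum_const, Finset.card_univ, Fintype.card_coe, card_PB,
    nsmul_eq_mul]
  have h3 : ∑ p : {p // p ∈ PB N}, (if (p : ℕ) = 1 then κ1 * u ^ 3 else 0) = κ1 * u ^ 3 := by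
    rw [Finset.sum_eq_single (⟨1, by rw [mem_PB]; omega⟩ : {p // p ∈ PB N})]
    · rw [if_pos rfl]
    · intro p _ hp
      rw [if_neg]
      intro h
      exact hp (Subtype.ext h)
    · intro h
      exact absurd (Finset.mem_univ _) h
  rw [h3]
  push_cast
  refine le_of_eq ?_
  ring

lemma ex2_four (H : Adm N u v z q) (hz : z ≤ 2) (hu4 : 4 * u ≤ 1) :
    Ex2 (N + 4) (mB N u v z q) (51 / 100 * u) (4 * u) where
  em := H.em
  K1 := by omega
  y0 := H.ex2.y0
  Y1 := hu4
  ge := H.ex2.ge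
  le := by
    rw [mB_z]
    exact mul_le_mul_of_nonneg_right (by linarith) H.u0.le

/-- **The selection of the fields.** -/
theorem sel (hn : 0 < n) (hβ : 0 ≤ β) (H : Adm N u v z q) (hz : z ≤ 2) (hu4 : 4 * u ≤ 1)
    (hsh : Shr u S T τ) (hB : 0 < B) (hκp : 0 < κp) (hκ : κp ≤ κ1)
    (hA : Ap n β (51 / 100 * u) (4 * u) V1 A (B * (n * u ^ 5)))
    (hw : 0 ≤ w) (hV1 : (κ1 + 2 * (N + 2) * κp + w) * u ^ 3 ≤ V1) :
    ∃ V : {p // p ∈ PB N} → ℝ, (∀ p, |V p - cB N u κ1 κp p| < κp * u ^ 3 / 4) ∧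
      tv (N + 4) (aB N u w V) ≤ V1 ∧
      (∀ p : {p // p ∈ PB N}, |cSK n (N + 4) (mB N u v z q) (bB n N β u S T τ) (aB N u w V) p -
        n / β| ≤ 16 * B * n * u ^ 2 / κp) ∧
      ∀ l, 1 ≤ l → l ≤ N + 2 →
        gg (skS n (N + 4) (mB N u v z q) (bB n N β u S T τ) (aB N u w V)) (spn n)
          (zs (show 0 < N + 4 by omega)) (aB N u w V) l l ≤
          2048 * B / (κp ^ 2 * (n * u ^ 6)) * u ^ 4 := by
  have hu := H.u0
  have hn' : (0 : ℝ) < n := by exact_mod_cast hn
  have hu3 : 0 < u ^ 3 := by positivity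
  have hE : 0 < B * (n * u ^ 5) := by positivity
  have hR : 0 < κp * u ^ 3 / 4 := by positivity
  have hc : ∀ p : {p // p ∈ PB N}, 2 * (κp * u ^ 3 / 4) < cB N u κ1 κp p := fun p => by
    have := cB_ge hκ hu.le p
    have h2 : 0 < κp * u ^ 3 := by positivity
    linarith
  obtain ⟨V, hV1', hV2, hV3, hV4⟩ := sel_box (J := Unit) (n := n) hn hβ
    (K := fun _ => N + 4) (m := fun _ => mB N u v z q) (b := fun _ => bB n N β u S T τ)
    (w := fun _ => wB N u w) (y := fun _ => 51 / 100 * u) (Y := fun _ => 4 * u)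
    (A := fun _ => A) hE (fun _ => hA) (fun _ => ex2_four H hz hu4) (fun _ => tv_bB hn hsh)
    (P := PB N) (fun _ => PB_K) (c := cB N u κ1 κp) hR hc (fun _ => by
      have h1 := sum_cB (N := N) (κ1 := κ1) (κp := κp) (hκp.le.trans hκ) hκp.le hu.le
      have h2 := rst_wB (N := N) (u := u) (w := w) hu.le hw
      show H758.rst (N + 4) (wB N u w) (PB N) + _ ≤ V1
      rw [h2]
      refine le_trans ?_ hV1
      have h3 : (κ1 + 2 * (N + 2) * κp + w) * u ^ 3 =
        w * u ^ 3 + (κ1 + 2 * (N + 2) * κp) * u ^ 3 := by ring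
      rw [h3]
      linarith)
  refine ⟨V, hV1', hV2 (), fun p => ?_, fun l h1 h2 => ?_⟩
  · refine (hV3 () p).trans (le_of_eq ?_)
    field_simp
    ring
  · have hl : l ∈ PB N := mem_PB.2 ⟨h1, h2⟩
    have h3 := hV4 () (zs (show 0 < N + 4 by omega)) ⟨l, hl⟩ (by
      funext i
      exact zs_eq _ ⟨h1, by omega⟩ i)
    refine h3.trans ?_
    have hm := H.ex2.yj h1 (show l ≤ N + 4 by omega)
    have hmu : 0 < 51 / 100 * u := by positivity
    simp only [Fintype.card_unit, Nat.cast_one, mul_one]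
    have e1 : 2048 * B / (κp ^ 2 * (n * u ^ 6)) * u ^ 4 =
        64 * (B * (n * u ^ 5)) / (1 / 2 * u * n ^ 2 * (κp * u ^ 3 / 4) ^ 2) := by
      field_simp
      ring
    rw [e1]
    refine div_le_div_of_nonneg_left (by positivity) (by positivity) ?_
    have h4 : 1 / 2 * u ≤ mB N u v z q l := by linarith
    gcongr

end Vale.Agent.P146.H457
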