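import Vale.Agent.P146.H457.IntL1

/-!
# P146: the row of the law of the lower grid in unit letters (helper457)
-/

set_option linter.all false

open MeasureTheory ProbabilityTheory

namespace Vale.Agent.P146.H457

open Vale.Agent.P157 Vale.Agent.P157.Lv Vale.Agent.P157.Lv.Sy
open Vale.Agent.P146.H425 Vale.Agent.P146.H325
open Vale.Agent.P146.H93 (Cd skS Em)
open Vale.Agent.P146.H186 (amp amp_mem cSK wc)
open Vale.Agent.P146.H758
open Vale.Agent.P146.H479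
open Vale.Agent.P146.H295 (gg Th spn zs zs_eq)
open Vale.Agent.P146.H498.MRow (eSKL eLN lside_unit)

variable {n N l : ℕ} {β u v z q S T τ w κ1 κp B V1 A D0 : ℝ}

lemma V_bd (hκp : 0 < κp) (hκ : κp ≤ κ1) (hu : 0 < u) {V : {p // p ∈ PB N} → ℝ}
    (hV : ∀ p, |V p - cB N u κ1 κp p| < κp * u ^ 3 / 4) (p : {p // p ∈ PB N}) : 0 < V p := by
  have h1 := (abs_lt.1 (hV p)).1
  have h2 := cB_ge (N := N) hκ hu.le p
  have h3 : 0 < κp * u ^ 3 := by positivity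
  linarith

lemma V_one (hκp : 0 < κp) (hκ : κp ≤ κ1) (hu : 0 < u) {V : {p // p ∈ PB N} → ℝ}
    (hV : ∀ p, |V p - cB N u κ1 κp p| < κp * u ^ 3 / 4) (h1 : 1 ∈ PB N) :
    κ1 / 2 * u ^ 3 ≤ V ⟨1, h1⟩ ∧ V ⟨1, h1⟩ ≤ 5 / 4 * κ1 * u ^ 3 := by
  have h2 := abs_lt.1 (hV ⟨1, h1⟩)
  have h3 : cB N u κ1 κp ⟨1, h1⟩ = κ1 * u ^ 3 := by
    unfold cB
    rw [if_pos rfl]
  have hu3 : 0 < u ^ 3 := by positivity
  have h4 : κp * u ^ 3 ≤ κ1 * u ^ 3 := mul_le_mul_of_nonneg_right hκ hu3.le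
  rw [h3] at h2
  constructor <;> nlinarith [h2.1, h2.2]

/-- the overlaps -/
lemma row_Tq (hn : 0 < n) (hβ0 : 0 < β) (H : Adm N u v z q) (hz : z + 1 / 4 ≤ 2)
    (hu4 : 4 * u ≤ 1) (hsh : Shr u S T τ) (hT0 : 0 < T) {V : {p // p ∈ PB N} → ℝ}
    (hD : Pu n β (4 * u) (tv (N + 4) (aB N u w V)) ≤
      (skS n (N + 4) (mB N u v z q) (bB n N β u S T τ) (aB N u w V)).fe + D0 * (n * u ^ 5))
    {θ σ : ℝ} (hθ : 16 * D0 / (β ^ 2 * T) + 1 / (n * u ^ 2) ≤ θ ^ 2)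
    (hσ : 16 * D0 / (β ^ 2 * S) + 1 / (n * u ^ 2) ≤ σ ^ 2) :
    (∀ l, 2 ≤ l → l ≤ N + 2 →
      Tq n (N + 4) (mB N u v z q) (bB n N β u S T τ) (aB N u w V) l ≤ (θ * u) ^ 2) ∧
    Tq n (N + 4) (mB N u v z q) (bB n N β u S T τ) (aB N u w V) 1 ≤ (σ * u) ^ 2 := by
  have hu := H.u0
  have hn' : (0 : ℝ) < n := by exact_mod_cast hn
  have hS0 : 0 < S := hT0.trans_le hsh.TS
  have hex := ex2_four H (by linarith) hu4
  have hNb : Na (N + 4) (bB n N β u S T τ) := fun j _ _ => bB_nonneg hβ0.le j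
  have hNw : Na (N + 4) (aB N u w V) := fun j _ _ => aB_nonneg j
  have hmK : mB N u v z q (N + 4) + u / 4 ≤ 4 * u := by
    rw [mB_z]
    nlinarith
  have hbt := tv_bB (N := N) (β := β) hn hsh
  constructor
  · intro l h1 h2
    have h3 := Tq_le (l := l) (t := T) hn hβ0 hu hex hmK hNb hNw hbt hD (by omega) hT0
      (by rw [sum_up hn hsh h1 h2])
    refine h3.trans ?_
    have := mul_le_mul_of_nonneg_left hθ (sq_nonneg u)
    calc _ ≤ _ := this
      _ = (θ * u) ^ 2 := by ring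
  · have h3 := Tq_le (l := 1) (t := S) hn hβ0 hu hex hmK hNb hNw hbt hD (by omega) hS0
      (by rw [sum_up_one hn hsh])
    refine h3.trans ?_
    have := mul_le_mul_of_nonneg_left hσ (sq_nonneg u)
    calc _ ≤ _ := this
      _ = (σ * u) ^ 2 := by ring

/-- the responses -/
lemma row_resp (hn : 0 < n) (hβ0 : 0 < β) (H : Adm N u v z q) {V : {p // p ∈ PB N} → ℝ}
    {θ x : ℝ} (hθ0 : 0 ≤ θ)
    (hresp : ∀ p : {p // p ∈ PB N}, |cSK n (N + 4) (mB N u v z q) (bB n N β u S T τ)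
       (aB N u w V) p - n / β| ≤ x * n / β)
    (hTq : Tq n (N + 4) (mB N u v z q) (bB n N β u S T τ) (aB N u w V) (N + 2) ≤
      (θ * u) ^ 2) :
    (∀ p, 1 ≤ p → p ≤ N + 2 →
      |β * (cSK n (N + 4) (mB N u v z q) (bB n N β u S T τ) (aB N u w V) p / n) - 1| ≤ x) ∧
    |β * (cSK n (N + 4) (mB N u v z q) (bB n N β u S T τ) (aB N u w V) (N + 3) / n) -
      1| ≤ x + β * ((v - 1) * u) * (θ * u) := by
  have hu := H.u0
  have hm := H.em
  have hn' : (0 : ℝ) < n := by exact_mod_cast hn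
  have hcs : ∀ p, 1 ≤ p → p ≤ N + 2 →
      |β * (cSK n (N + 4) (mB N u v z q) (bB n N β u S T τ) (aB N u w V) p / n) - 1| ≤ x := by
    intro p h1 h2
    have h3 := hresp ⟨p, mem_PB.2 ⟨h1, h2⟩⟩
    have e : β * (cSK n (N + 4) (mB N u v z q) (bB n N β u S T τ) (aB N u w V) p / n) - 1 =
        β / n * (cSK n (N + 4) (mB N u v z q) (bB n N β u S T τ) (aB N u w V) p - n / β) := by
      field_simp
    rw [e, abs_mul, abs_of_pos (by positivity)]
    calc β / n * |cSK n (N + 4) (mB N u v z q) (bB n N β u S T τ) (aB N u w V) p - n / β| ≤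
        β / n * (x * n / β) := mul_le_mul_of_nonneg_left h3 (by positivity)
      _ = x := by field_simp
  refine ⟨hcs, ?_⟩
  have hv1 : 0 ≤ v - 1 := by linarith [H.v1]
  have hθu : 0 ≤ θ * u := by positivity
  have h1 := abs_le.1 (hcs (N + 2) (by omega) le_rfl)
  obtain ⟨h2, h3⟩ := cSK_diff (n := n) (b := bB n N β u S T τ) (w := aB N u w V) hn hm
    (show N + 2 ≤ N + 3 by omega) (show N + 3 ≤ N + 4 by omega)
  have h4 : Rq n (N + 4) (mB N u v z q) (bB n N β u S T τ) (aB N u w V) (N + 3 - 1) ≤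
      θ * u := by
    refine (Rq_le_sqrt (n := n) hn hm (show N + 3 - 1 ≤ N + 4 by omega)).trans ?_
    exact (Real.sqrt_le_sqrt hTq).trans_eq (Real.sqrt_sq hθu)
  have h5 : mB N u v z q (N + 3) - mB N u v z q (N + 2) = (v - 1) * u := by
    rw [mB_v, mB_g]
    ring
  rw [h5] at h3
  have h6 : n * ((v - 1) * u * Rq n (N + 4) (mB N u v z q) (bB n N β u S T τ)
      (aB N u w V) (N + 3 - 1)) ≤ n * ((v - 1) * u * (θ * u)) := by
    have : 0 ≤ (v - 1) * u := by positivity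
    gcongr
  have e : β * (cSK n (N + 4) (mB N u v z q) (bB n N β u S T τ) (aB N u w V) (N + 3) / n) - 1 =
      (β * (cSK n (N + 4) (mB N u v z q) (bB n N β u S T τ) (aB N u w V) (N + 2) / n) - 1) +
      β / n * (cSK n (N + 4) (mB N u v z q) (bB n N β u S T τ) (aB N u w V) (N + 3) -
        cSK n (N + 4) (mB N u v z q) (bB n N β u S T τ) (aB N u w V) (N + 2)) := by
    field_simp
    ring
  have h7 : 0 ≤ β / n * (cSK n (N + 4) (mB N u v z q) (bB n N β u S T τ) (aB N u w V) (N + 3) -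
        cSK n (N + 4) (mB N u v z q) (bB n N β u S T τ) (aB N u w V) (N + 2)) := by
    positivity
  have h8 : β / n * (cSK n (N + 4) (mB N u v z q) (bB n N β u S T τ) (aB N u w V) (N + 3) -
        cSK n (N + 4) (mB N u v z q) (bB n N β u S T τ) (aB N u w V) (N + 2)) ≤
      β * ((v - 1) * u) * (θ * u) := by
    calc _ ≤ β / n * (n * ((v - 1) * u * (θ * u))) :=
          mul_le_mul_of_nonneg_left (h3.trans h6) (by positivity)
      _ = _ := by field_simp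
  rw [e]
  exact abs_le.2 ⟨by linarith [h1.1], by linarith [h1.2]⟩

lemma mB_le (H : Adm N u v z q) {i : ℕ} (hi : i < N + 1) :
    0 < mB N u v z q (i + 1) ∧ mB N u v z q (i + 1) ≤ u := by
  have hu := H.u0
  refine ⟨H.ex2.y0.trans_le (H.ex2.yj (by omega) (by omega)), ?_⟩
  rcases Nat.eq_zero_or_pos i with h | h
  · subst h
    rw [zero_add, mB_one]
    linarith
  · exact (H.mid (l := i + 1) (by omega) (by omega)).2

/-- the energies of the steps -/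
lemma row_E (hn : 0 < n) (hβ0 : 0 < β) (H : Adm N u v z q) (hz : z + 1 / 4 ≤ 2)
    (hu4 : 4 * u ≤ 1) (hsh : Shr u S T τ) (hD0 : 0 ≤ D0) {V : {p // p ∈ PB N} → ℝ}
    (hD : Pu n β (4 * u) (tv (N + 4) (aB N u w V)) ≤
      (skS n (N + 4) (mB N u v z q) (bB n N β u S T τ) (aB N u w V)).fe + D0 * (n * u ^ 5)) :
    ∀ l, 2 ≤ l → l < N + 1 → eSKL n (N + 4) (mB N u v z q) (bB n N β u S T τ)
      (aB N u w V) (fun i => 2 * mB N u v z q (i + 1)) l ≤ 8 * (N + 2) * D0 * (n * u ^ 6) := by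
  intro l h1 h2
  have hu := H.u0
  have hex := ex2_four H (by linarith) hu4
  have hbt := tv_bB (N := N) (β := β) hn hsh
  have h3 := eSKL_le' hex hβ0.le hbt hD (l := l) (by omega)
    (M := fun i => 2 * mB N u v z q (i + 1)) (fun i _ => le_rfl)
    (fun i hi => by
      have := (mB_le H (i := i) (by omega)).2
      show 2 * mB N u v z q (i + 1) ≤ 4 * u
      linarith)
  refine h3.trans ?_
  have h4 : (l : ℝ) ≤ N + 2 := by
    have : l ≤ N + 2 := by omega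
    exact_mod_cast this
  calc 2 * (l : ℝ) * (4 * u) * (D0 * (n * u ^ 5)) = 8 * l * D0 * (n * u ^ 6) := by ring
    _ ≤ 8 * (N + 2) * D0 * (n * u ^ 6) := by gcongr

lemma mw_le {V κ : ℝ} (hu : 0 < u) (hu4 : 4 * u ≤ 1) (hκ0 : 0 < κ) (hκ : κ ≤ 1)
    (hV : V ≤ 5 / 4 * κ * u ^ 3) : 51 / 100 * u * V ≤ 1 := by
  have hu1 : u ≤ 1 := by linarith
  have h2 : u ^ 3 ≤ 1 := pow_le_one₀ hu.le hu1
  have h4 : κ * u ^ 3 ≤ 1 * 1 := mul_le_mul hκ h2 (by positivity) zero_le_one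
  have h3 : V ≤ 5 / 4 := by linarith
  have h5 : 51 / 100 * u * V ≤ 51 / 100 * u * (5 / 4) :=
    mul_le_mul_of_nonneg_left h3 (by positivity)
  linarith

lemma k1_bd {V κ : ℝ} (hu : 0 < u) (hV : κ / 2 * u ^ 3 ≤ V) :
    κ / 2 ≤ V / u ^ 3 ∧ V / u ^ 3 * u ^ 3 = V := by
  have hu3 : 0 < u ^ 3 := by positivity
  exact ⟨by rw [le_div_iff₀ hu3]; exact hV, by field_simp⟩

/-- **The row of the law.** -/
theorem row (hn : 0 < n) (hβ : 1 ≤ β) (H : Adm N u v z q) (hz : z + 1 / 4 ≤ 2)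
    (hu4 : 4 * u ≤ 1) (hsh : Shr u S T τ) (hT0 : 0 < T) (hTu : T * u ^ 2 < 1) (hκp : 0 < κp)
    (hκ : κp ≤ κ1) (hκ11 : κ1 ≤ 1) {V : {p // p ∈ PB N} → ℝ}
    (hV : ∀ p, |V p - cB N u κ1 κp p| < κp * u ^ 3 / 4)
    {gam θ σ δ ε' x : ℝ}
    (hgg : ∀ l, 1 ≤ l → l ≤ N + 2 →
        gg (skS n (N + 4) (mB N u v z q) (bB n N β u S T τ) (aB N u w V)) (spn n)
          (zs (show 0 < N + 4 by omega)) (aB N u w V) l l ≤ gam * u ^ 4)
    (hresp : ∀ p : {p // p ∈ PB N}, |cSK n (N + 4) (mB N u v z q) (bB n N β u S T τ)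
       (aB N u w V) p - n / β| ≤ x * n / β)
    (hD0 : 0 ≤ D0)
    (hD : Pu n β (4 * u) (tv (N + 4) (aB N u w V)) ≤
      (skS n (N + 4) (mB N u v z q) (bB n N β u S T τ) (aB N u w V)).fe + D0 * (n * u ^ 5))
    (hθ0 : 0 ≤ θ) (hθ : 16 * D0 / (β ^ 2 * T) + 1 / (n * u ^ 2) ≤ θ ^ 2)
    (hσ0 : 0 ≤ σ) (hσ : 16 * D0 / (β ^ 2 * S) + 1 / (n * u ^ 2) ≤ σ ^ 2)
    (hδ : 0 < δ) (hδ1 : δ * u ^ 2 ≤ 1) (hroot : 128 * β ^ 4 * θ ^ 2 * u ≤ κ1 * n)
    (hε0 : 0 ≤ ε') (hε1 : ε' ≤ 1) (hx : x + β * ((v - 1) * u) * (θ * u) ≤ 1 / 8)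
    (hsmall : 224 * β ^ 2 * eLN n β u (N - 1) (q / N) gam θ σ q δ (8 * (N + 2) * D0) ≤
      κ1 * ε') :
    alU n (N + 4) (mB N u v z q) (bB n N β u S T τ) (aB N u w V) β u (N + 3) - T ≤
      (1 + ε') * β * (2 * v - 1 + q) *
        (√(Tq n (N + 4) (mB N u v z q) (bB n N β u S T τ) (aB N u w V) (N + 2)) / u) +
      2 * (1 + ε') * β * σ + T ^ 2 * u ^ 2 +
        2 * (x + β * ((v - 1) * u) * (θ * u)) * T := by
  have hu := H.u0
  have hn' : (0 : ℝ) < n := by exact_mod_cast hn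
  have hβ0 : 0 < β := by linarith
  have hN2 := H.N2
  have hN' : (0 : ℝ) < N := H.N0
  have hV0 := V_bd (N := N) hκp hκ hu hV
  obtain ⟨hTq, hTq1⟩ := row_Tq hn hβ0 H hz hu4 hsh hT0 hD hθ hσ
  obtain ⟨hcs, hcq⟩ := row_resp hn hβ0 H hθ0 hresp (hTq (N + 2) (by omega) le_rfl)
  have hx2 : 0 ≤ β * ((v - 1) * u) * (θ * u) := by
    have hv1 : 0 ≤ v - 1 := by linarith [H.v1]
    positivity
  have hE := row_E hn hβ0 H hz hu4 hsh hD0 hD
  -- the field of the level one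
  have h1P : 1 ∈ PB N := mem_PB.2 ⟨le_rfl, by omega⟩
  obtain ⟨hV1a, hV1b⟩ := V_one hκp hκ hu hV h1P
  have ea1 : aB N u w V 1 = √(V ⟨1, h1P⟩) := aB_mem ⟨1, h1P⟩
  have hκ0 : 0 < κ1 := hκp.trans_le hκ
  obtain ⟨k1, hk1⟩ : ∃ k1, k1 = V ⟨1, h1P⟩ / u ^ 3 := ⟨_, rfl⟩
  obtain ⟨hk1h, hk1u⟩ := k1_bd hu hV1a
  rw [← hk1] at hk1h hk1u
  have hmw : mB N u v z q 1 * aB N u w V 1 ^ 2 ≤ 1 := by
    rw [mB_one, ea1, Real.sq_sqrt (hV0 _).le]
    exact mw_le hu hu4 hκ0 hκ11 hV1b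
  have hroot' : 64 * β ^ 4 * θ ^ 2 * u ≤ k1 * n := by
    have := mul_le_mul_of_nonneg_right hk1h hn'.le
    linarith
  have hsm : 112 * β ^ 2 * eLN n β u (((N + 1 : ℕ) : ℝ) - ((2 : ℕ) : ℝ)) (q / N) gam θ σ q δ
      (8 * (N + 2) * D0) ≤ k1 * ε' := by
    have e : ((N + 1 : ℕ) : ℝ) - ((2 : ℕ) : ℝ) = N - 1 := by push_cast; ring
    rw [e]
    have := mul_le_mul_of_nonneg_right hk1h hε0
    linarith
  have hexp : ∀ p, cSK n (N + 4) (mB N u v z q) (bB n N β u S T τ) (aB N u w V) p / n =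
      1 - ∑ i ∈ Finset.Ico p (N + 4 + 1), (mB N u v z q (i + 1) - mB N u v z q i) *
      (skS n (N + 4) (mB N u v z q) (bB n N β u S T τ) (aB N u w V)).Rl (spn n) i := by
    intro p
    rw [cSK_Rq hn]
    field_simp
    rfl
  have key := lside_unit (n := n) (K := N + 4) (m := mB N u v z q) (b := bB n N β u S T τ)
    (w := aB N u w V) hn (show 0 < N + 4 by omega) H.em (bB_nonneg hβ0.le 1) (g := 2) (p0 := 2)
    (c := N + 1) (q := N + 3) (by omega) le_rfl (by omega) (by omega) (by omega)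
    (aB_pos hV0 h1P) (fun p h1 h2 => aB_pos hV0 (mem_PB.2 ⟨by omega, by omega⟩))
    (fun j h1 h2 => bB_mid h1 (by omega)) (β := β) (u := u) (T := T) (η := q / N) (gam := gam)
    (θ := θ) (σ := σ) (dl := q) (δ := δ) (E0 := 8 * (N + 2) * D0) (κ1 := k1) (ε' := ε')
    (χ1 := cSK n (N + 4) (mB N u v z q) (bB n N β u S T τ) (aB N u w V) 1 / n)
    (χq := cSK n (N + 4) (mB N u v z q) (bB n N β u S T τ) (aB N u w V) (N + 3) / n)
    (al := alU n (N + 4) (mB N u v z q) (bB n N β u S T τ) (aB N u w V) β u (N + 3))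
    (M := fun i => 2 * mB N u v z q (i + 1))
    hu hβ hT0.le hTu (sum_two hn hsh) (div_pos H.q0 hN')
    (fun l h1 h2 => by
      rw [mB_step h1 (by omega)]
      exact le_of_eq (by ring))
    (fun l h1 h2 => hgg l (by omega) (by omega)) hθ0 hσ0 (hTq (N + 1) (by omega) (by omega))
    hTq1 hδ hδ1
    (fun i hi => by
      have := (mB_le H (i := i) (by omega)).1
      show mB N u v z q (i + 1) < 2 * mB N u v z q (i + 1)
      linarith)
    (by positivity) hE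
    (by
      rw [mB_v]
      have : v ≤ 2 := by linarith [H.vz]
      exact mul_le_mul_of_nonneg_right this hu.le)
    (by
      have h1 := (H.mid (l := N + 1) (by omega) (by omega)).2
      have h2 := (H.mid (l := 2) le_rfl (by omega)).1
      linarith)
    (by rw [ea1, Real.sq_sqrt (hV0 _).le, hk1u]) hmw (hexp 1) (hexp (N + 3))
    ((hcs 1 le_rfl (by omega)).trans (by linarith)) (hcq.trans hx)
    (by
      unfold alU
      ring) hroot' hε1 hsm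
  have e1 : (2 * mB N u v z q (N + 3) - mB N u v z q 2) / u = 2 * v - 1 + q := by
    rw [mB_v, mB_two (by omega)]
    field_simp
    ring
  have e2 : |alU n (N + 4) (mB N u v z q) (bB n N β u S T τ) (aB N u w V) β u (N + 3)| * u ^ 2 *
      T ≤ 2 * (x + β * ((v - 1) * u) * (θ * u)) * T := by
    refine mul_le_mul_of_nonneg_right ?_ hT0.le
    unfold alU
    rw [abs_div, abs_of_pos (show 0 < u ^ 2 by positivity), div_mul_cancel₀ _ (by positivity),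
      abs_mul, abs_of_pos (show (0 : ℝ) < 2 by norm_num), mul_div_assoc]
    linarith
  rw [e1] at key
  exact key.trans (by
    have e3 : Th (skS n (N + 4) (mB N u v z q) (bB n N β u S T τ) (aB N u w V)) (spn n)
      (N + 3 - 1) = Tq n (N + 4) (mB N u v z q) (bB n N β u S T τ) (aB N u w V) (N + 2) := rfl
    rw [e3]
    linarith)

end Vale.Agent.P146.H457
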