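import Vale.Agent.P146.H457.IntL2
import Vale.Agent.P146.H437.GridL
import Vale.Agent.P146.H437.ApE

/-!
# P146: one share of the lower grid, all numbers fixed (helper457)

* `ag`: the affine bound of the law at one share.
* `rowAt`: the row of `RowL2` at one share.
-/

set_option linter.all false

open MeasureTheory ProbabilityTheory

namespace Vale.Agent.P146.H457

open Vale.Agent.P157 Vale.Agent.P157.Lv Vale.Agent.P157.Lv.Sy
open Vale.Agent.P146.H425 Vale.Agent.P146.H325 Vale.Agent.P146.U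
open Vale.Agent.P146.H93 (Cd skS Em)
open Vale.Agent.P146.H186 (amp amp_mem cSK wc)
open Vale.Agent.P146.H758
open Vale.Agent.P146.H479
open Vale.Agent.P146.H295 (gg Th spn zs zs_eq)
open Vale.Agent.P146.H437 (psiN psiN_nonneg PuUp)
open Vale.Agent.P146.H498.MRow (eSKL eLN lside_unit)

/-- the law of one share in the units of the scale -/
noncomputable def phiB (n N : ℕ) (β κ u S τ r q T w : ℝ) (V : {p // p ∈ PB N} → ℝ) : ℝ :=
  ((skS n (N + 4) (mB N u (1 + r) (1 + κ) q) (bB n N β u S T τ) (aB N u w V)).fe -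
    P1 n β (51 / 100 * u) - n / (2 * β) * (∑ p, V p + w * u ^ 3)) / (n * u ^ 5)

variable {n N l : ℕ} {β κ u v z q r S T T' τ w w' : ℝ} {V : {p // p ∈ PB N} → ℝ}

lemma bB_q (hn : 0 < n) (h : Shr u S T τ) :
    bB n N β u S T τ (N + 3) ^ 2 = β ^ 2 / n * ((T - τ) * u ^ 2) := by
  rw [bB_sq hn h]
  unfold pk
  rw [if_neg (by omega), if_neg (by omega), if_pos rfl, if_neg (by omega)]
  ring

lemma bB_p (hn : 0 < n) (h : Shr u S T τ) :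
    bB n N β u S T τ 2 ^ 2 = β ^ 2 / n * ((S - T) * u ^ 2) := by
  rw [bB_sq hn h]
  unfold pk
  rw [if_neg (by omega), if_pos rfl, if_neg (by omega), if_neg (by omega)]
  ring

lemma bB_oth {j : ℕ} (h1 : j ≠ 2) (h2 : j ≠ N + 3) :
    bB n N β u S T' τ j = bB n N β u S T τ j := by
  unfold bB
  by_cases c1 : j = 1
  · rw [if_pos c1, if_pos c1]
  · rw [if_neg c1, if_neg c1, if_neg h1, if_neg h1, if_neg h2, if_neg h2]

lemma aB_oth {j : ℕ} (h2 : j ≠ N + 3) : aB N u w' V j = aB N u w V j := by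
  by_cases h : j ∈ PB N
  · have e1 := aB_mem (u := u) (w := w) (V := V) ⟨j, h⟩
    have e2 := aB_mem (u := u) (w := w') (V := V) ⟨j, h⟩
    rw [e1, e2]
  · rw [aB_not h, aB_not h]
    unfold wB
    rw [if_neg h2, if_neg h2]

/-- **The affine bound.** -/
theorem ag (hn : 0 < n) (hβ : 0 < β) (H : Adm N u (1 + r) (1 + κ) q) (hsh : Shr u S T τ)
    (hsh' : Shr u S T' τ) (hw : 0 ≤ w) (hw' : 0 ≤ w') :
    phiB n N β κ u S τ r q T' w' V ≤ phiB n N β κ u S τ r q T w V +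
      thU n (N + 4) (mB N u (1 + r) (1 + κ) q) (bB n N β u S T τ) (aB N u w V) β u 2 (N + 3) *
        (T' - T) +
      alU n (N + 4) (mB N u (1 + r) (1 + κ) q) (bB n N β u S T τ) (aB N u w V) β u (N + 3) /
        (4 * β) * (w' - w) := by
  have hu := H.u0
  have hu3 : 0 < u ^ 3 := by positivity
  have h := ag_unit (n := n) (K := N + 4) (m := mB N u (1 + r) (1 + κ) q)
    (b := bB n N β u S T τ) (b' := bB n N β u S T' τ) (w := aB N u w V) (w' := aB N u w' V)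
    (p := 2) (q := N + 3) (s := T) (s' := T') (v := w) (v' := w') hn hβ hu H.em
    (fun j _ _ => bB_nonneg hβ.le j) (fun j _ _ => aB_nonneg j)
    (fun j _ _ => bB_nonneg hβ.le j) (fun j _ _ => aB_nonneg j) (by omega) (by omega) (by omega)
    (by rw [bB_p hn hsh', bB_p hn hsh]; ring)
    (by rw [bB_q hn hsh', bB_q hn hsh]; ring)
    (fun j _ _ h1 h2 => by rw [bB_oth h1 h2])
    (by
      rw [aB_v, aB_v, Real.sq_sqrt (by positivity), Real.sq_sqrt (by positivity)]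
      ring)
    (fun j _ _ h2 => by rw [aB_oth h2]) (A0 := P1 n β (51 / 100 * u))
    (W := ∑ p, V p + w * u ^ 3) (W' := ∑ p, V p + w' * u ^ 3) (by ring)
  unfold phiB
  have e : ∀ X : ℝ, (n : ℝ) / (2 * β) * X = n * X / (2 * β) := fun X => by ring
  rw [e, e]
  exact h

/-- the square of a sum -/
lemma sq_split {η k X s : ℝ} (hη : 0 < η) (hη1 : η ≤ 1) (hk0 : 0 ≤ k) (hk : k ≤ 1 + η / 8)
    (hX : 0 ≤ X) (hs : 0 ≤ s) : (1 - η) * (k * X + s) ^ 2 ≤ X ^ 2 + (1 + 2 / η) * s ^ 2 := by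
  have h1 : (k * X + s) ^ 2 ≤ (1 + η / 2) * (k * X) ^ 2 + (1 + 2 / η) * s ^ 2 := by
    have h2 : 0 ≤ (η * (k * X) - 2 * s) ^ 2 / (2 * η) := by positivity
    have e : (η * (k * X) - 2 * s) ^ 2 / (2 * η) =
        η / 2 * (k * X) ^ 2 + 2 / η * s ^ 2 - 2 * (k * X) * s := by
      field_simp
      ring
    rw [e] at h2
    nlinarith
  have h2 : (1 - η) * ((1 + η / 2) * k ^ 2) ≤ 1 := by
    have h3 : k ^ 2 ≤ (1 + η / 8) ^ 2 := pow_le_pow_left₀ hk0 hk 2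
    have h4 : (1 - η) * ((1 + η / 2) * k ^ 2) ≤ (1 - η) * ((1 + η / 2) * (1 + η / 8) ^ 2) := by
      have : 0 ≤ 1 - η := by linarith
      gcongr
    refine h4.trans ?_
    have e : (1 - η) * ((1 + η / 2) * (1 + η / 8) ^ 2) =
        1 - η * (1 / 4 + η * (39 / 64) + η ^ 2 * (17 / 128) + η ^ 3 * (1 / 128)) := by ring
    rw [e]
    have : 0 ≤ η * (1 / 4 + η * (39 / 64) + η ^ 2 * (17 / 128) + η ^ 3 * (1 / 128)) := by
      positivity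
    linarith
  have h3 : (1 - η) * (k * X + s) ^ 2 ≤
      (1 - η) * ((1 + η / 2) * (k * X) ^ 2 + (1 + 2 / η) * s ^ 2) :=
    mul_le_mul_of_nonneg_left h1 (by linarith)
  have h4 : (1 - η) * ((1 + 2 / η) * s ^ 2) ≤ (1 + 2 / η) * s ^ 2 := by
    have : 0 ≤ (1 + 2 / η) * s ^ 2 := by positivity
    nlinarith
  have h5 : (1 - η) * ((1 + η / 2) * (k * X) ^ 2) ≤ X ^ 2 := by
    have := mul_le_mul_of_nonneg_right h2 (sq_nonneg X)
    calc _ = (1 - η) * ((1 + η / 2) * k ^ 2) * X ^ 2 := by ring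
      _ ≤ 1 * X ^ 2 := this
      _ = X ^ 2 := one_mul _
  linarith

/-- the fields of one share -/
lemma rowAt_V {κ0 κ1 κp E0 gam x A : ℝ} (hn : 0 < n) (hβ0 : 0 < β) (H : Adm N u v z q)
    (hz : z ≤ 2) (h4u : 4 * u ≤ 1) (hST : Shr u S T τ) (hE0 : 0 < E0)
    (hA : H758.Ap n β (51 / 100 * u) (4 * u) (8 * u ^ 3) A (E0 * (n * u ^ 5))) (hκp : 0 < κp)
    (hκ1p : κp ≤ κ1) (hκs : κ1 + 2 * (N + 2) * κp ≤ κ0) (hκ0 : κ0 ≤ 8)
    (hgam : 2048 * E0 / (κp ^ 2 * (n * u ^ 6)) ≤ gam)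
    (hx : 16 * E0 * β * u ^ 2 / κp ≤ x) :
    ∃ V : {p // p ∈ PB N} → ℝ, (∀ p, |V p - cB N u κ1 κp p| < κp * u ^ 3 / 4) ∧
      tv (N + 4) (aB N u 0 V) ≤ 8 * u ^ 3 ∧ (∀ p, 0 < V p) ∧ ∑ p, V p ≤ κ0 * u ^ 3 ∧
      (∀ p : {p // p ∈ PB N}, |cSK n (N + 4) (mB N u v z q) (bB n N β u S T τ) (aB N u 0 V) p -
        n / β| ≤ x * n / β) ∧
      ∀ l, 1 ≤ l → l ≤ N + 2 →
        gg (skS n (N + 4) (mB N u v z q) (bB n N β u S T τ) (aB N u 0 V)) (spn n)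
          (zs (show 0 < N + 4 by omega)) (aB N u 0 V) l l ≤ gam * u ^ 4 := by
  have hu := H.u0
  have hn' : (0 : ℝ) < n := by exact_mod_cast hn
  have hu3 : 0 < u ^ 3 := by positivity
  obtain ⟨V, hV, htv, hresp, hgg⟩ := sel (w := 0) hn hβ0.le H hz h4u hST hE0 hκp hκ1p
    hA le_rfl (by
      rw [add_zero]
      exact mul_le_mul_of_nonneg_right (hκs.trans hκ0) hu3.le)
  refine ⟨V, hV, htv, V_bd hκp hκ1p hu hV, ?_, fun p => ?_, fun l h1 h2 =>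
    (hgg l h1 h2).trans (mul_le_mul_of_nonneg_right hgam (by positivity))⟩
  · have h1 : ∑ p, V p ≤ ∑ p : {p // p ∈ PB N}, (cB N u κ1 κp p + 2 * (κp * u ^ 3 / 4)) := by
      refine Finset.sum_le_sum fun p _ => ?_
      have h2 := (abs_lt.1 (hV p)).2
      have h3 : 0 < κp * u ^ 3 := by positivity
      linarith
    refine h1.trans ((sum_cB (hκp.le.trans hκ1p) hκp.le hu.le).trans ?_)
    exact mul_le_mul_of_nonneg_right hκs hu3.le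
  · refine (hresp p).trans ?_
    have h1 := mul_le_mul_of_nonneg_right hx (show 0 ≤ (n : ℝ) / β by positivity)
    calc 16 * E0 * n * u ^ 2 / κp = 16 * E0 * β * u ^ 2 / κp * (n / β) := by field_simp
      _ ≤ x * (n / β) := h1
      _ = x * n / β := by ring

/-- the local energy of one share -/
lemma rowAt_D {C : ℝ} (hn : 0 < n) (hu : 0 < u) (hPu : PuUp n β C u)
    (htv : tv (N + 4) (aB N u 0 V) ≤ 8 * u ^ 3) (hV0 : ∀ p, 0 < V p)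
    (h2 : -1 ≤ phiB n N β κ u S τ r q T 0 V) :
    Pu n β (4 * u) (tv (N + 4) (aB N u 0 V)) ≤
      (skS n (N + 4) (mB N u (1 + r) (1 + κ) q) (bB n N β u S T τ) (aB N u 0 V)).fe +
        (C + 1) * (n * u ^ 5) := by
  have hn' : (0 : ℝ) < n := by exact_mod_cast hn
  have hu3 : 0 < u ^ 3 := by positivity
  have hu5 : 0 < (n : ℝ) * u ^ 5 := by positivity
  have htvV : tv (N + 4) (aB N u 0 V) = ∑ p, V p := by
    rw [tv_aB hu.le le_rfl (fun p => (hV0 p).le), zero_mul, add_zero]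
  have h1 := hPu 4 (tv (N + 4) (aB N u 0 V)) (by norm_num) (by norm_num)
    (H758.tv_nonneg _ _) (htv.trans (by linarith))
  unfold phiB at h2
  rw [le_div_iff₀ hu5, zero_mul, add_zero, ← htvV] at h2
  linarith

/-- the slope of one share -/
lemma rowAt_th {b ω : ℕ → ℝ} (hn : 0 < n) (H : Adm N u (1 + r) (1 + κ) q) :
    0 ≤ thU n (N + 4) (mB N u (1 + r) (1 + κ) q) b ω β u 2 (N + 3) ∧
    0 ≤ Tq n (N + 4) (mB N u (1 + r) (1 + κ) q) b ω (N + 2) ∧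
    r / 4 * (β ^ 2 * Tq n (N + 4) (mB N u (1 + r) (1 + κ) q) b ω (N + 2) / u ^ 2 -
      β ^ 2 / (n * u ^ 2)) ≤ thU n (N + 4) (mB N u (1 + r) (1 + κ) q) b ω β u 2 (N + 3) := by
  have hu := H.u0
  have hn' : (0 : ℝ) < n := by exact_mod_cast hn
  refine ⟨thU_nonneg hn H.em (by omega) hu,
    le_trans (by positivity) (Tq_ge hn H.em (by omega)), ?_⟩
  have h1 := thU_ge (n := n) (b := b) (w := ω) (p := 2) (g := N + 2)
    (q := N + 3) (β := β) hn H.em (by omega) (by omega) (by omega) hu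
  rw [show N + 2 + 1 = N + 3 from rfl, mB_v, mB_g] at h1
  refine le_trans (le_of_eq ?_) h1
  field_simp
  ring

/-- the numbers of one share -/
lemma rowAt_num {η ε' β r q Q u σ S T α y e1 D θ : ℝ} (hη : 0 < η) (hη1 : η ≤ 1)
    (hβ0 : 0 < β) (hu : 0 < u) (hr : 0 < r) (hq : 0 < q) (hε0 : 0 ≤ ε') (hε1 : ε' ≤ 1)
    (hk : (1 + ε') * (1 + 2 * r + q) ≤ 1 + η / 8) (hQ0 : 0 ≤ Q) (hσ0 : 0 ≤ σ) (hT0 : 0 < T)
    (hTS : T ≤ S) (hy : 0 ≤ y)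
    (he1 : (1 + 2 / η) * (4 * β * σ + S ^ 2 * u ^ 2 + 2 * y * S) ^ 2 + D ≤ e1)
    (key : α - T ≤ (1 + ε') * β * (2 * (1 + r) - 1 + q) * (√Q / u) + 2 * (1 + ε') * β * σ +
      T ^ 2 * u ^ 2 + 2 * y * T)
    (hθ : r / 4 * (β ^ 2 * Q / u ^ 2 - D) ≤ θ) :
    r / 4 * ((1 - η) * (max (α - T) 0) ^ 2 - e1) ≤ θ := by
  obtain ⟨X, hX⟩ : ∃ X, X = β * (√Q / u) := ⟨_, rfl⟩
  have hX0 : 0 ≤ X := by rw [hX]; positivity
  have hX2 : X ^ 2 = β ^ 2 * Q / u ^ 2 := by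
    rw [hX, mul_pow, div_pow, Real.sq_sqrt hQ0]
    ring
  have hS0 : 0 < S := hT0.trans_le hTS
  obtain ⟨s, hs⟩ : ∃ s, s = 4 * β * σ + S ^ 2 * u ^ 2 + 2 * y * S := ⟨_, rfl⟩
  have hs0 : 0 ≤ s := by rw [hs]; positivity
  have h1 : α - T ≤ (1 + ε') * (1 + 2 * r + q) * X + s := by
    refine key.trans ?_
    have e1 : (1 + ε') * β * (2 * (1 + r) - 1 + q) * (√Q / u) =
        (1 + ε') * (1 + 2 * r + q) * X := by
      rw [hX]
      ring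
    have e2 : 2 * (1 + ε') * β * σ ≤ 4 * β * σ := by
      have h5 : 0 ≤ β * σ := by positivity
      have h6 := mul_le_mul_of_nonneg_right hε1 h5
      linarith
    have e3 : T ^ 2 * u ^ 2 ≤ S ^ 2 * u ^ 2 :=
      mul_le_mul_of_nonneg_right (pow_le_pow_left₀ hT0.le hTS 2) (sq_nonneg u)
    have e4 : 2 * y * T ≤ 2 * y * S := mul_le_mul_of_nonneg_left hTS (by positivity)
    rw [e1, hs]
    linarith
  have hkX : 0 ≤ (1 + ε') * (1 + 2 * r + q) := by positivity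
  have h2 : max (α - T) 0 ≤ (1 + ε') * (1 + 2 * r + q) * X + s :=
    max_le h1 (by positivity)
  have h3 : (max (α - T) 0) ^ 2 ≤ ((1 + ε') * (1 + 2 * r + q) * X + s) ^ 2 :=
    pow_le_pow_left₀ (le_max_right _ _) h2 2
  have h4 := sq_split (k := (1 + ε') * (1 + 2 * r + q)) hη hη1 hkX hk hX0 hs0
  have h5 : (1 - η) * (max (α - T) 0) ^ 2 ≤
      (1 - η) * ((1 + ε') * (1 + 2 * r + q) * X + s) ^ 2 :=
    mul_le_mul_of_nonneg_left h3 (by linarith)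
  rw [← hs] at he1
  refine le_trans ?_ hθ
  refine mul_le_mul_of_nonneg_left ?_ (by positivity)
  rw [← hX2]
  linarith

/-- the value rows of one share -/
lemma rowAt_val {d d1 : ℝ} (hn : 0 < n) (hβ0 : 0 < β) (H : Adm N u (1 + r) (1 + κ) q)
    (hsh : ∀ T' ∈ Set.Icc τ S, Shr u S T' τ) (hT : T ∈ Set.Icc τ S)
    (hS3 : ∀ T' ∈ Set.Icc τ S, ∀ w ∈ Set.Icc (0 : ℝ) 1,
      |phiB n N β κ u S τ r q T' w V - H437.psiN n β τ u S 1 (1 + r) (1 + κ) T' 0 w| ≤ d)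
    (hd1 : 2 * d ≤ d1) :
    (∀ w' ∈ Set.Icc (0 : ℝ) 1, psiN n β τ u S 1 (1 + r) (1 + κ) T 0 w' ≤
        psiN n β τ u S 1 (1 + r) (1 + κ) T 0 0 + 1 / (4 * β) * alU n (N + 4)
          (mB N u (1 + r) (1 + κ) q) (bB n N β u S T τ) (aB N u 0 V) β u (N + 3) * w' + d1) ∧
      (∀ T' ∈ Set.Icc τ S, psiN n β τ u S 1 (1 + r) (1 + κ) T' 0 0 ≤
        psiN n β τ u S 1 (1 + r) (1 + κ) T 0 0 + thU n (N + 4) (mB N u (1 + r) (1 + κ) q)
          (bB n N β u S T τ) (aB N u 0 V) β u 2 (N + 3) * (T' - T) + d1) := by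
  have hφ0 := hS3 T hT 0 ⟨le_rfl, zero_le_one⟩
  have h4 := (abs_le.1 hφ0).2
  refine ⟨fun w' hw' => ?_, fun T' hT' => ?_⟩
  · have h1 := ag (V := V) hn hβ0 H (hsh T hT) (hsh T hT) (w := 0) (w' := w') le_rfl hw'.1
    rw [sub_self, mul_zero, add_zero, sub_zero] at h1
    have h3 := (abs_le.1 (hS3 T hT w' hw')).1
    generalize alU n (N + 4) (mB N u (1 + r) (1 + κ) q) (bB n N β u S T τ) (aB N u 0 V) β u
      (N + 3) = α at h1 ⊢
    have e : α / (4 * β) * w' = 1 / (4 * β) * α * w' := by ring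
    rw [e] at h1
    linarith
  · have h1 := ag (V := V) hn hβ0 H (hsh T hT) (hsh T' hT') (w := 0) (w' := 0) le_rfl le_rfl
    rw [sub_self, mul_zero, add_zero] at h1
    have h3 := (abs_le.1 (hS3 T' hT' 0 ⟨le_rfl, zero_le_one⟩)).1
    linarith

/-- **The row of `RowL2` at one share.** -/
theorem rowAt {n N : ℕ} {β κ u S τ r q κ0 κ1 κp E0 C d d1 e1 η ε' th σ δ gam x T : ℝ}
    (hn : 0 < n) (hβ : 1 ≤ β) (hu : 0 < u) (h8u : 8 * u ≤ 1) (hκ : 0 < κ) (hκ2 : κ ≤ 1 / 200)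
    (hr : 0 < r) (hrκ : r ≤ κ) (hN : 2 ≤ N) (hq : 0 < q) (hq1 : q ≤ 1 / 4) (hτ : 0 < τ)
    (hT : T ∈ Set.Icc τ S) (hSu : S * u ^ 2 ≤ 1 / 2) (hE0 : 0 < E0)
    (hA : H758.Ap n β (51 / 100 * u) (4 * u) (8 * u ^ 3) (P1 n β (51 / 100 * u))
      (E0 * (n * u ^ 5))) (hC : 0 ≤ C) (hPu : H437.PuUp n β C u) (hκp : 0 < κp)
    (hκ1p : κp ≤ κ1) (hκ11 : κ1 ≤ 1) (hκs : κ1 + 2 * (N + 2) * κp ≤ κ0) (hκ0 : κ0 ≤ 8)
    (hS3 : ∀ T' ∈ Set.Icc τ S, ∀ w ∈ Set.Icc (0 : ℝ) 1, ∀ V : {p // p ∈ PB N} → ℝ,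
      (∀ p, 0 < V p) → ∑ p, V p ≤ κ0 * u ^ 3 →
      |phiB n N β κ u S τ r q T' w V - H437.psiN n β τ u S 1 (1 + r) (1 + κ) T' 0 w| ≤ d)
    (hd0 : d ≤ 1) (hd1 : 2 * d ≤ d1) (hth0 : 0 ≤ th)
    (hth : 16 * (C + 1) / (β ^ 2 * τ) + 1 / (n * u ^ 2) ≤ th ^ 2) (hσ0 : 0 ≤ σ)
    (hσ : 16 * (C + 1) / (β ^ 2 * S) + 1 / (n * u ^ 2) ≤ σ ^ 2) (hδ : 0 < δ)
    (hδ1 : δ * u ^ 2 ≤ 1) (hroot : 128 * β ^ 4 * th ^ 2 * u ≤ κ1 * n) (hε0 : 0 ≤ ε')
    (hε1 : ε' ≤ 1) (hgam : 2048 * E0 / (κp ^ 2 * (n * u ^ 6)) ≤ gam)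
    (hx : 16 * E0 * β * u ^ 2 / κp ≤ x) (hx8 : x + β * (r * u) * (th * u) ≤ 1 / 8)
    (hsmall : 224 * β ^ 2 * H498.MRow.eLN n β u (N - 1) (q / N) gam th σ q δ
      (8 * (N + 2) * (C + 1)) ≤ κ1 * ε') (hη : 0 < η) (hη1 : η ≤ 1)
    (hk : (1 + ε') * (1 + 2 * r + q) ≤ 1 + η / 8)
    (he1 : (1 + 2 / η) * (4 * β * σ + S ^ 2 * u ^ 2 +
      2 * (x + β * (r * u) * (th * u)) * S) ^ 2 + β ^ 2 / (n * u ^ 2) ≤ e1) :
    ∃ θ α : ℝ, (∀ w' ∈ Set.Icc (0 : ℝ) 1, psiN n β τ u S 1 (1 + r) (1 + κ) T 0 w' ≤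
        psiN n β τ u S 1 (1 + r) (1 + κ) T 0 0 + 1 / (4 * β) * α * w' + d1) ∧
      (∀ T' ∈ Set.Icc τ S, psiN n β τ u S 1 (1 + r) (1 + κ) T' 0 0 ≤
        psiN n β τ u S 1 (1 + r) (1 + κ) T 0 0 + θ * (T' - T) + d1) ∧
      0 ≤ θ ∧ r / 4 * ((1 - η) * (max (α - T) 0) ^ 2 - e1) ≤ θ := by
  have hn' : (0 : ℝ) < n := by exact_mod_cast hn
  have hβ0 : 0 < β := by linarith
  have hT0 : 0 < T := hτ.trans_le hT.1
  have h4u : 4 * u ≤ 1 := by linarith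
  have hzu : (1 + κ) * u ≤ 1 := by nlinarith
  have H : Adm N u (1 + r) (1 + κ) q :=
    ⟨hN, hu, hq, hq1, by linarith, by linarith, hzu⟩
  have hsh : ∀ T' ∈ Set.Icc τ S, Shr u S T' τ := fun T' h => ⟨by linarith, h.2, h.1, hτ.le⟩
  obtain ⟨V, hV, htv, hV0, hVs, hresp, hgg⟩ := rowAt_V hn hβ0 H (by linarith) h4u (hsh T hT)
    hE0 hA hκp hκ1p hκs hκ0 hgam hx
  have hS3' : ∀ T' ∈ Set.Icc τ S, ∀ w ∈ Set.Icc (0 : ℝ) 1,
      |phiB n N β κ u S τ r q T' w V - H437.psiN n β τ u S 1 (1 + r) (1 + κ) T' 0 w| ≤ d :=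
    fun T' hT' w hw => hS3 T' hT' w hw V hV0 hVs
  have hψ0 : 0 ≤ psiN n β τ u S 1 (1 + r) (1 + κ) T 0 0 :=
    psiN_nonneg hn hβ0 hu (by linarith) hτ.le hzu hr.le hrκ hT
  have hD := rowAt_D (β := β) (κ := κ) (S := S) (τ := τ) (r := r) (q := q) (T := T) hn hu hPu htv
    hV0 (by
      have := (abs_le.1 (hS3' T hT 0 ⟨le_rfl, zero_le_one⟩)).1
      linarith)
  have e0 : (1 + r - 1) = r := by ring
  have key := row (n := n) (N := N) (β := β) (u := u) (v := 1 + r) (z := 1 + κ) (q := q) (S := S)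
    (T := T) (τ := τ) (w := 0) (κ1 := κ1) (κp := κp) (D0 := C + 1) (V := V) (gam := gam)
    (θ := th) (σ := σ) (δ := δ) (ε' := ε') (x := x) hn hβ H (by linarith) h4u (hsh T hT) hT0
    (by
      have : T * u ^ 2 ≤ S * u ^ 2 := mul_le_mul_of_nonneg_right hT.2 (sq_nonneg u)
      linarith) hκp hκ1p hκ11 hV hgg hresp (by linarith) hD hth0
    (by
      refine le_trans ?_ hth
      have : 16 * (C + 1) / (β ^ 2 * T) ≤ 16 * (C + 1) / (β ^ 2 * τ) := by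
        have := hT.1
        gcongr
      linarith) hσ0 hσ hδ hδ1 hroot hε0 hε1 (by rw [e0]; exact hx8) hsmall
  rw [e0] at key
  obtain ⟨hv1, hv2⟩ := rowAt_val hn hβ0 H hsh hT hS3' hd1
  obtain ⟨ht1, ht2, ht3⟩ := rowAt_th (β := β) (b := bB n N β u S T τ) (ω := aB N u 0 V) hn H
  have hx0 : 0 ≤ x := le_trans (by positivity) hx
  exact ⟨_, _, hv1, hv2, ht1, rowAt_num hη hη1 hβ0 hu hr hq hε0 hε1 hk ht2 hσ0 hT0 hT.2
    (by positivity) he1 key ht3⟩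

end Vale.Agent.P146.H457
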