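import Vale.Agent.P146.H457.IntL3
import Vale.Agent.P146.H479.ApBx
import Vale.Agent.P146.H97.CG2
import Vale.Agent.P146.H310.CstL
import Vale.Agent.P146.H295.S3L0

/-!
# P146: the rows of the lower grid under the box, the constants (helper457)
-/

set_option linter.all false

open MeasureTheory ProbabilityTheory Set

namespace Vale.Agent.P146.H457

open Vale.Agent.P157 Vale.Agent.P157.Lv Vale.Agent.P157.Lv.Sy
open Vale.Agent.P146.H425 Vale.Agent.P146.H325 Vale.Agent.P146.U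
open Vale.Agent.P146.H93 (Cd skS Em)
open Vale.Agent.P146.H758
open Vale.Agent.P146.H437 (psiN PuUp RowL2)
open Vale.Agent.P146.H498.MRow (eLN)

/-- the numbers at a small scale -/
lemma num_small {S σ β e1 E0 κp r th C τ u n η A : ℝ} (hβ : 1 ≤ β) (hS : 0 < S) (hσ : 0 < σ)
    (he1 : 0 < e1) (hE0 : 0 < E0) (hκp : 0 < κp) (hr : 0 < r) (hth : 0 ≤ th) (hC : 0 < C)
    (hu : 0 < u) (hn : 0 < n) (hn6 : 1 ≤ n * u ^ 6) (hu1 : u ≤ 1) (hη : 0 < η)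
    (hA : A = 16 * E0 * β / κp + β * r * th) (hσ2 : σ ^ 2 = 32 * (C + 1) / (β ^ 2 * S))
    (hth2 : th ^ 2 = 16 * (C + 1) / (β ^ 2 * τ) + 1)
    (m1 : β ^ 2 * S / (16 * (C + 1)) * u ≤ 1) (m2 : 8 * A * u ≤ 1)
    (m3 : (S ^ 2 + 2 * A * S) / (4 * β * σ) * u ≤ 1) (m4 : 2 * β ^ 2 / e1 * u ≤ 1)
    (hSe : (1 + 2 / η) * (8 * β * σ) ^ 2 ≤ e1 / 2) :
    16 * (C + 1) / (β ^ 2 * τ) + 1 / (n * u ^ 2) ≤ th ^ 2 ∧
    16 * (C + 1) / (β ^ 2 * S) + 1 / (n * u ^ 2) ≤ σ ^ 2 ∧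
    16 * E0 * β * u ^ 2 / κp + β * (r * u) * (th * u) ≤ 1 / 8 ∧
    (1 + 2 / η) * (4 * β * σ + S ^ 2 * u ^ 2 +
      2 * (16 * E0 * β * u ^ 2 / κp + β * (r * u) * (th * u)) * S) ^ 2 + β ^ 2 / (n * u ^ 2) ≤
      e1 := by
  have hβ0 : 0 < β := by linarith
  have hA0 : 0 < A := by rw [hA]; positivity
  have hu2 : u ^ 2 ≤ u := by nlinarith
  have hnu : 1 / (n * u ^ 2) ≤ u := by
    rw [div_le_iff₀ (by positivity)]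
    have h1 : u ^ 3 * (n * u ^ 3) = n * u ^ 6 := by ring
    have h2 : u ^ 3 ≤ 1 := pow_le_one₀ hu.le hu1
    have h3 : 0 ≤ n * u ^ 3 := by positivity
    have h4 : u * (n * u ^ 2) = n * u ^ 3 := by ring
    rw [h4]
    nlinarith
  have eA : 16 * E0 * β * u ^ 2 / κp + β * (r * u) * (th * u) = A * u ^ 2 := by
    rw [hA]
    field_simp
  rw [eA]
  have hAu : A * u ^ 2 ≤ A * u := mul_le_mul_of_nonneg_left hu2 hA0.le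
  refine ⟨?_, ?_, ?_, ?_⟩
  · rw [hth2]
    linarith
  · rw [hσ2]
    have h1 : u ≤ 16 * (C + 1) / (β ^ 2 * S) := by
      rw [le_div_iff₀ (by positivity)]
      have h2 := m1
      rw [div_mul_eq_mul_div, div_le_one (by positivity)] at h2
      linarith
    have e : 32 * (C + 1) / (β ^ 2 * S) = 16 * (C + 1) / (β ^ 2 * S) +
      16 * (C + 1) / (β ^ 2 * S) := by ring
    rw [e]
    linarith
  · linarith
  · have h1 : S ^ 2 * u ^ 2 + 2 * (A * u ^ 2) * S ≤ 4 * β * σ := by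
      have h2 := m3
      rw [div_mul_eq_mul_div, div_le_one (by positivity)] at h2
      have h3 : (S ^ 2 + 2 * A * S) * u ^ 2 ≤ (S ^ 2 + 2 * A * S) * u :=
        mul_le_mul_of_nonneg_left hu2 (by positivity)
      linarith
    have h4 : (4 * β * σ + S ^ 2 * u ^ 2 + 2 * (A * u ^ 2) * S) ^ 2 ≤ (8 * β * σ) ^ 2 :=
      pow_le_pow_left₀ (by positivity) (by linarith) 2
    have h5 := mul_le_mul_of_nonneg_left h4 (show 0 ≤ 1 + 2 / η by positivity)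
    have h6 : β ^ 2 / (n * u ^ 2) ≤ e1 / 2 := by
      have h7 : β ^ 2 / (n * u ^ 2) = β ^ 2 * (1 / (n * u ^ 2)) := by ring
      have h8 : β ^ 2 * (1 / (n * u ^ 2)) ≤ β ^ 2 * u := mul_le_mul_of_nonneg_left hnu (by positivity)
      have h9 := m4
      rw [div_mul_eq_mul_div, div_le_one he1] at h9
      rw [h7]
      linarith
    linarith

/-- the number `S0` -/
lemma num_S {C η β S σ e1 : ℝ} (hβ : 1 ≤ β) (hC : 0 < C) (hη : 0 < η) (he1 : 0 < e1)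
    (hS : 4096 * (C + 1) * (1 + 2 / η) / e1 + 1 ≤ S)
    (hσ2 : σ ^ 2 = 32 * (C + 1) / (β ^ 2 * S)) :
    (1 + 2 / η) * (8 * β * σ) ^ 2 ≤ e1 / 2 := by
  have hS0 : 0 < S := lt_of_lt_of_le (by positivity) hS
  have h1 : (8 * β * σ) ^ 2 = 2048 * (C + 1) / S := by
    rw [mul_pow, hσ2]
    field_simp
    ring
  rw [h1]
  have h2 : 4096 * (C + 1) * (1 + 2 / η) ≤ e1 * S := by
    have h3 : 4096 * (C + 1) * (1 + 2 / η) / e1 ≤ S := by linarith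
    rw [div_le_iff₀ he1] at h3
    linarith
  rw [← mul_div_assoc, div_le_iff₀ hS0]
  linarith

/-- the number `k` -/
lemma num_k {η r q : ℝ} (hη : 0 < η) (hη1 : η ≤ 1) (hr : r ≤ η / 64) (hq : q ≤ η / 64)
    (hr0 : 0 < r) (hq0 : 0 < q) : (1 + η / 16) * (1 + 2 * r + q) ≤ 1 + η / 8 := by
  have h1 : (1 + η / 16) * (1 + 2 * r + q) ≤ (1 + η / 16) * (1 + 3 * (η / 64)) :=
    mul_le_mul_of_nonneg_left (by linarith) (by positivity)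
  nlinarith

/-- the sizes of a small scale -/
lemma num_u {S u0 β C A σ e1 M u : ℝ} (hS : 0 < S) (hu0 : 0 < u0) (hβ : 0 < β) (hC : 0 < C)
    (hA : 0 < A) (hσ : 0 < σ) (he1 : 0 < e1)
    (hM : M = 8 + 2 * S + 1 / u0 + β ^ 2 * S / (16 * (C + 1)) + 8 * A +
      (S ^ 2 + 2 * A * S) / (4 * β * σ) + 2 * β ^ 2 / e1) (hu : 0 < u) (hMu : M * u ≤ 1) :
    8 * u ≤ 1 ∧ u ≤ u0 ∧ S * u ^ 2 ≤ 1 / 2 ∧ β ^ 2 * S / (16 * (C + 1)) * u ≤ 1 ∧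
      8 * A * u ≤ 1 ∧ (S ^ 2 + 2 * A * S) / (4 * β * σ) * u ≤ 1 ∧ 2 * β ^ 2 / e1 * u ≤ 1 := by
  have p1 : 0 ≤ 1 / u0 := by positivity
  have p2 : 0 ≤ β ^ 2 * S / (16 * (C + 1)) := by positivity
  have p3 : 0 ≤ (S ^ 2 + 2 * A * S) / (4 * β * σ) := by positivity
  have p4 : 0 ≤ 2 * β ^ 2 / e1 := by positivity
  have hMM : ∀ x, x ≤ M → x * u ≤ 1 := fun x hx =>
    (mul_le_mul_of_nonneg_right hx hu.le).trans hMu
  have h8u : 8 * u ≤ 1 := hMM 8 (by linarith)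
  refine ⟨h8u, ?_, ?_, hMM _ (by linarith), hMM _ (by linarith), hMM _ (by linarith),
    hMM _ (by linarith)⟩
  · have h3 := hMM (1 / u0) (by linarith)
    rw [div_mul_eq_mul_div, one_mul, div_le_one hu0] at h3
    exact h3
  · have h3 := hMM (2 * S) (by linarith)
    have h4 : u ^ 2 ≤ u := by
      have := mul_le_mul_of_nonneg_left (show u ≤ 1 by linarith) hu.le
      rw [sq]
      linarith
    have h5 := mul_le_mul_of_nonneg_left h4 hS.le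
    linarith

lemma num_X {β κ0 η X : ℝ} (hβ : 1 ≤ β) (hκ0 : 0 < κ0) (hη : 0 < η) (hη1 : η ≤ 1)
    (hX : X = κ0 / 2 * (η / 16) / (224 * β ^ 2)) :
    224 * β ^ 2 * X = κ0 / 2 * (η / 16) ∧ X ≤ κ0 / 2 := by
  have hβ0 : 0 < β := by linarith
  have hX0 : 0 < X := by rw [hX]; positivity
  have e : 224 * β ^ 2 * X = κ0 / 2 * (η / 16) := by
    rw [hX]
    field_simp
  refine ⟨e, ?_⟩
  have h3 : 1 ≤ β ^ 2 := one_le_pow₀ hβ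
  have h4 : 1 * X ≤ 224 * β ^ 2 * X := mul_le_mul_of_nonneg_right (by linarith) hX0.le
  have h5 : κ0 / 2 * (η / 16) ≤ κ0 / 2 * 1 :=
    mul_le_mul_of_nonneg_left (by linarith) (by positivity)
  linarith

lemma num_K {E0 κp γ0 K Y : ℝ} (hκp : 0 < κp) (hγ : 0 < γ0) (hK1 : 1 ≤ K)
    (hKM : 2048 * E0 / (κp ^ 2 * γ0) ≤ K) (hY : K ^ 6 ≤ Y) :
    1 ≤ Y ∧ 2048 * E0 / (κp ^ 2 * Y) ≤ γ0 := by
  have h1 : 1 ≤ Y := (one_le_pow₀ hK1).trans hY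
  refine ⟨h1, ?_⟩
  have h3 : K ≤ K ^ 6 := le_self_pow₀ hK1 (by norm_num)
  have h4 := (hKM.trans h3).trans hY
  have hY0 : 0 < Y := by linarith
  rw [div_le_iff₀ (by positivity)] at h4 ⊢
  linarith

/-- the row at one scale -/
theorem rowL_u {n Nb Ng : ℕ}
    {β κ u S τ r η e1 d1 C E0 d κ0 κp σ th X q δ γ0 A : ℝ} (hβ : 1 ≤ β) (hκ : 0 < κ)
    (hκ2 : κ ≤ 1 / 200) (hη : 0 < η) (hη1 : η ≤ 1) (he1 : 0 < e1) (hC : 0 < C)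
    (hS : 4096 * (C + 1) * (1 + 2 / η) / e1 + 1 ≤ S) (hS1 : 1 ≤ S) (hτ : 0 < τ) (hτ1 : τ ≤ 1)
    (hr : 0 < r) (hr0 : r ≤ η / 64) (hrκ : r ≤ κ) (hE0 : 0 < E0)
    (hd1' : d ≤ 1) (hd2' : 2 * d ≤ d1) (hκ0 : 0 < κ0) (hκ01 : κ0 ≤ 1) (hσ : 0 < σ)
    (hσ2 : σ ^ 2 = 32 * (C + 1) / (β ^ 2 * S)) (hth : 0 ≤ th)
    (hth2 : th ^ 2 = 16 * (C + 1) / (β ^ 2 * τ) + 1)
    (hX : X = κ0 / 2 * (η / 16) / (224 * β ^ 2)) (hq : 0 < q) (hq2 : q ≤ 1 / 4)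
    (hq3 : q ≤ η / 64) (hNb : 2 ≤ Nb) (hδ : 0 < δ) (hκp0 : 0 < κp)
    (hκp1 : 2 * ((Nb : ℝ) + 2) * κp = κ0 / 2) (hκp2 : κp ≤ κ0 / 2)
    (hA : A = 16 * E0 * β / κp + β * r * th) (hn0 : 0 < n) (hu : 0 < u) (h8u : 8 * u ≤ 1)
    (hSu : S * u ^ 2 ≤ 1 / 2) (m1 : β ^ 2 * S / (16 * (C + 1)) * u ≤ 1) (m2 : 8 * A * u ≤ 1)
    (m3 : (S ^ 2 + 2 * A * S) / (4 * β * σ) * u ≤ 1) (m4 : 2 * β ^ 2 / e1 * u ≤ 1)
    (hn6 : 1 ≤ (n : ℝ) * u ^ 6) (hgam : 2048 * E0 / (κp ^ 2 * (n * u ^ 6)) ≤ γ0)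
    (c1 : eLN n β u ((Nb : ℝ) - 1) (q / Nb) γ0 th σ q δ (8 * ((Nb : ℝ) + 2) * (C + 1)) ≤ X)
    (c2 : δ * u ^ 2 ≤ 1) (c3 : 128 * β ^ 4 * th ^ 2 * u ≤ X * n)
    (hAp : Ap n β (51 / 100 * u) (4 * u) (8 * u ^ 3) (P1 n β (51 / 100 * u)) (E0 * (n * u ^ 5)))
    (hPu : PuUp n β C u)
    (hS3 : ∀ T' ∈ Set.Icc τ S, ∀ w ∈ Set.Icc (0 : ℝ) 1, ∀ V : {p // p ∈ PB Nb} → ℝ,
      (∀ p, 0 < V p) → ∑ p, V p ≤ κ0 * u ^ 3 →
      |phiB n Nb β κ u S τ r q T' w V - H437.psiN n β τ u S 1 (1 + r) (1 + κ) T' 0 w| ≤ d) :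
    ∀ T ∈ Icc (τ + (S - τ) / Ng) S, ∃ θ α : ℝ,
      (∀ w' ∈ Icc (0 : ℝ) 1, psiN n β τ u S 1 (1 + r) (1 + κ) T 0 w' ≤
        psiN n β τ u S 1 (1 + r) (1 + κ) T 0 0 + 1 / (4 * β) * α * w' + d1) ∧
      (∀ T' ∈ Icc τ S, psiN n β τ u S 1 (1 + r) (1 + κ) T' 0 0 ≤
        psiN n β τ u S 1 (1 + r) (1 + κ) T 0 0 + θ * (T' - T) + d1) ∧
      0 ≤ θ ∧ r / 4 * ((1 - η) * (max (α - T) 0) ^ 2 - e1) ≤ θ := by
  have hβ0 : 0 < β := by linarith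
  have hnR : (0 : ℝ) < n := by exact_mod_cast hn0
  have hS0 : 0 < S := by linarith
  obtain ⟨k1, k2, k3, k4⟩ := num_small (A := A) hβ hS0 hσ he1 hE0 hκp0 hr hth hC hu hnR hn6
    (by linarith) hη hA hσ2 hth2 m1 m2 m3 m4 (num_S hβ hC hη he1 hS hσ2)
  obtain ⟨x1, x2⟩ := num_X hβ hκ0 hη hη1 hX
  have hk := num_k hη hη1 hr0 hq3 hr hq
  have y1 : 224 * β ^ 2 * eLN n β u ((Nb : ℝ) - 1) (q / Nb) γ0 th σ q δ
      (8 * ((Nb : ℝ) + 2) * (C + 1)) ≤ κ0 / 2 * (η / 16) := by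
    rw [← x1]
    exact mul_le_mul_of_nonneg_left c1 (by positivity)
  have y2 : κ0 / 2 + 2 * ((Nb : ℝ) + 2) * κp ≤ κ0 := by linarith
  intro T hT
  have hT' : T ∈ Icc τ S := by
    refine ⟨le_trans ?_ hT.1, hT.2⟩
    have : 0 ≤ (S - τ) / Ng := div_nonneg (by linarith) (Nat.cast_nonneg _)
    linarith
  exact rowAt (N := Nb) (κ0 := κ0) (κ1 := κ0 / 2) (κp := κp) (E0 := E0)
    (C := C) (d := d) (d1 := d1) (e1 := e1) (η := η) (ε' := η / 16) (th := th) (σ := σ)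
    (δ := δ) (gam := γ0) (x := 16 * E0 * β * u ^ 2 / κp) hn0 hβ hu h8u hκ hκ2 hr hrκ hNb hq
    hq2 hτ hT' hSu hE0 hAp hC.le hPu hκp0 hκp2 (by linarith) y2 (by linarith) hS3
    hd1' hd2' hth k1 hσ.le k2 hδ c2
    (c3.trans (mul_le_mul_of_nonneg_right x2 hnR.le)) (by positivity) (by linarith) hgam le_rfl
    k3 y1 hη hη1 hk k4

/-- the constants before `n` -/
lemma num_c {κ0' d1 τ S β C : ℝ} (hκ : 0 < κ0') (hd1 : 0 < d1) (hτ : 0 < τ) (hS : 0 < S)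
    (hβ : 0 < β) (hC : 0 < C) : ∃ d σ th : ℝ, 0 < d ∧ d ≤ 1 ∧ 2 * d ≤ d1 ∧ 0 < σ ∧
      σ ^ 2 = 32 * (C + 1) / (β ^ 2 * S) ∧ 0 ≤ th ∧
      th ^ 2 = 16 * (C + 1) / (β ^ 2 * τ) + 1 := by
  refine ⟨min 1 (d1 / 2), √(32 * (C + 1) / (β ^ 2 * S)), √(16 * (C + 1) / (β ^ 2 * τ) + 1),
    by positivity, min_le_left _ _, ?_, Real.sqrt_pos.2 (by positivity),
    Real.sq_sqrt (by positivity), by positivity, Real.sq_sqrt (by positivity)⟩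
  have : min 1 (d1 / 2) ≤ d1 / 2 := min_le_right _ _
  linarith

lemma num_p {κ0 : ℝ} (Nb : ℕ) (hκ : 0 < κ0) : ∃ κp : ℝ, 0 < κp ∧
    2 * ((Nb : ℝ) + 2) * κp = κ0 / 2 ∧ κp ≤ κ0 / 2 := by
  have hNb0 : (0 : ℝ) ≤ Nb := Nat.cast_nonneg _
  refine ⟨κ0 / (4 * (Nb + 2)), by positivity, ?_, ?_⟩
  · field_simp
    ring
  · refine div_le_div_of_nonneg_left hκ.le (by norm_num) ?_
    linarith

/-- **The rows of the lower grid under the box** (`RowLBox`, the box spelled out). -/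
theorem rowLBox' {β : ℝ} (hβ : 1 < β) (h2 : Ex2Out β) (hL : LStar β) :
    ∀ κ : ℝ, 0 < κ → κ ≤ 1 / 200 → ∀ η e1 : ℝ, 0 < η → 0 < e1 → ∃ S0 : ℝ, ∀ S : ℝ, S0 ≤ S →
    ∃ τ0 : ℝ, 0 < τ0 ∧ ∀ τ : ℝ, 0 < τ → τ ≤ τ0 → ∀ d2 : ℝ, 0 < d2 →
      ∃ r0 : ℝ, 0 < r0 ∧ ∀ r : ℝ, 0 < r → r ≤ r0 → r ≤ κ → ∀ N : ℕ, 1 ≤ N →
        ∀ B d1 : ℝ, 0 ≤ B → 0 < d1 →
          ∃ K : ℝ, ∃ n0 : ℕ, ∀ n : ℕ, n0 ≤ n → ∀ u : ℝ, K * (n : ℝ) ^ (-(1 / 6) : ℝ) ≤ u →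
            u ≤ (n : ℝ) ^ (-(11 / 100) : ℝ) →
            (∀ v V : ℝ, u / 2 ≤ v → v ≤ 4 * u → 0 ≤ V → V ≤ 8 * u ^ 3 →
              |Pu n β v V - P1 n β v - n / (2 * β) * V| ≤ B * (n * u ^ 5)) →
              RowL2 n β κ u S τ r N η e1 d1 d2 (Icc 0 1) := by
  have hβ0 : 0 < β := by linarith
  have hG := H97.cg hβ0 h2 hL
  obtain ⟨C, nC, hC, hnC, hPu⟩ := H437.puUp hβ0 h2 hL hG
  obtain ⟨C', nA, hC', hnA, hAp⟩ := H479.apBx' hβ0 h2 hL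
  intro κ hκ hκ2 η e1 hη he1
  obtain ⟨η', hη0, hη1, hηη⟩ : ∃ η', 0 < η' ∧ η' ≤ 1 ∧ η' ≤ η :=
    ⟨min η 1, by positivity, min_le_right _ _, min_le_left _ _⟩
  refine ⟨4096 * (C + 1) * (1 + 2 / η') / e1 + 1, fun S hS => ⟨1, one_pos, fun τ hτ hτ1 d2 hd2 =>
    ⟨η' / 64, by positivity, fun r hr hr0 hrκ Ng hNg B d1 hB hd1 => ?_⟩⟩⟩
  have hS1 : 1 ≤ S := by
    refine le_trans ?_ hS
    have : 0 ≤ 4096 * (C + 1) * (1 + 2 / η') / e1 := by positivity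
    linarith
  have hS0 : 0 < S := by linarith
  have hE0 : 0 < C' * (B + 1) := by positivity
  obtain ⟨d, σ, th, hd0, hd1', hd2', hσ0, hσ2, hth0, hth2⟩ :=
    num_c one_pos hd1 hτ hS0 hβ0 hC
  obtain ⟨κ0', q0', K0, n1, hκ0', hq0', hK0, hS3⟩ :=
    H295.S3L.s3L0 (S := S) hβ0 hG hτ hE0.le hd0
  obtain ⟨κ0, hκ00, hκ01, hκ02⟩ : ∃ κ0, 0 < κ0 ∧ κ0 ≤ 1 ∧ κ0 ≤ κ0' :=
    ⟨min κ0' 1, by positivity, min_le_right _ _, min_le_left _ _⟩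
  obtain ⟨X, hX⟩ : ∃ X, X = κ0 / 2 * (η' / 16) / (224 * β ^ 2) := ⟨_, rfl⟩
  have hX0 : 0 < X := by rw [hX]; positivity
  obtain ⟨q, Nb, δ, γ0, u0, hq, hqq, hNb, hδ, hγ0, hu0, hu01, hcst⟩ :=
    H310.cstL (D0 := C + 1) (q0 := min (min q0' (1 / 4)) (η' / 64)) hβ.le hth0 hσ0.le
      (by linarith) hX0 (by positivity)
  obtain ⟨κp, hκp0, hκp1, hκp2⟩ := num_p Nb hκ00
  obtain ⟨A, hA⟩ : ∃ A, A = 16 * (C' * (B + 1)) * β / κp + β * r * th := ⟨_, rfl⟩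
  have hA0 : 0 < A := by rw [hA]; positivity
  obtain ⟨M, hM⟩ : ∃ M, M = 8 + 2 * S + 1 / u0 + β ^ 2 * S / (16 * (C + 1)) + 8 * A +
    (S ^ 2 + 2 * A * S) / (4 * β * σ) + 2 * β ^ 2 / e1 := ⟨_, rfl⟩
  obtain ⟨n2, hn2, hev⟩ := H437.ev_one M
  refine ⟨max K0 (2048 * (C' * (B + 1)) / (κp ^ 2 * γ0)), max (max nC nA) (max n1 n2),
    fun n hn u huK hu11 hbox => ?_⟩
  have hnC' : nC ≤ n := (le_max_left _ _).trans ((le_max_left _ _).trans hn)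
  have hnA' : nA ≤ n := (le_max_right _ _).trans ((le_max_left _ _).trans hn)
  have hn1' : n1 ≤ n := (le_max_left _ _).trans ((le_max_right _ _).trans hn)
  have hn2' : n2 ≤ n := (le_max_right _ _).trans ((le_max_right _ _).trans hn)
  have hn0 : 0 < n := hn2.trans_le hn2'
  have hnR : (0 : ℝ) < n := by exact_mod_cast hn0
  have hp : 0 < (n : ℝ) ^ (-(1 / 6) : ℝ) := by positivity
  have huK0 : K0 * (n : ℝ) ^ (-(1 / 6) : ℝ) ≤ u :=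
    (mul_le_mul_of_nonneg_right (le_max_left _ _) hp.le).trans huK
  have hu6 : (n : ℝ) ^ (-(1 / 6) : ℝ) ≤ u :=
    (le_mul_of_one_le_left hp.le hK0).trans huK0
  have hu : 0 < u := hp.trans_le hu6
  have hK1 : 1 ≤ max K0 (2048 * (C' * (B + 1)) / (κp ^ 2 * γ0)) := hK0.trans (le_max_left _ _)
  obtain ⟨hn6, hgam⟩ := num_K hκp0 hγ0 hK1 (le_max_right _ _)
    (H97.nxK (zero_le_one.trans hK1) hn0 huK)
  obtain ⟨h8u, hu0u, hSu, m1, m2, m3, m4⟩ := num_u hS0 hu0 hβ0 hC hA0 hσ0 he1 hM hu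
    (hev n hn2' u hu hu11).1
  obtain ⟨c1, c2, c3⟩ := hcst n u γ0 hu hu0u hn6 hγ0.le le_rfl
  have hAp' := hAp n hnA' u B hu6 hu11 hB hbox
  have hPu' := hPu n hnC' u hu6 hu11
  have hq1 : q ≤ q0' := hqq.trans ((min_le_left _ _).trans (min_le_left _ _))
  have hS3' : ∀ T' ∈ Set.Icc τ S, ∀ w ∈ Set.Icc (0 : ℝ) 1, ∀ V : {p // p ∈ PB Nb} → ℝ,
      (∀ p, 0 < V p) → ∑ p, V p ≤ κ0 * u ^ 3 →
      |phiB n Nb β κ u S τ r q T' w V - H437.psiN n β τ u S 1 (1 + r) (1 + κ) T' 0 w| ≤ d :=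
    fun T' hT' w hw V hV hVs => hS3 n hn1' u huK0 hu11 hAp' κ r q Nb hκ hκ2 hr hrκ hq hq1 hNb T'
      hT' w hw V hV (hVs.trans (mul_le_mul_of_nonneg_right hκ02 (by positivity)))
  have hrow := rowL_u (Ng := Ng) hβ.le hκ hκ2 hη0 hη1 he1 hC hS hS1 hτ hτ1 hr hr0 hrκ hE0 hd1'
    hd2' hκ00 hκ01 hσ0 hσ2 hth0 hth2 hX hq
    (hqq.trans ((min_le_left _ _).trans (min_le_right _ _))) (hqq.trans (min_le_right _ _)) hNb
    hδ hκp0 hκp1 hκp2 hA hn0 hu h8u hSu m1 m2 m3 m4 hn6 hgam c1 c2 c3 hAp' hPu' hS3'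
  intro T hT
  obtain ⟨θ, α, r1, r2, r3, r4⟩ := hrow T hT
  have h3 : (1 - η) * (max (α - T) 0) ^ 2 ≤ (1 - η') * (max (α - T) 0) ^ 2 :=
    mul_le_mul_of_nonneg_right (by linarith only [hηη]) (sq_nonneg _)
  refine ⟨θ, α, r1, r2, le_trans ?_ r3, le_trans (mul_le_mul_of_nonneg_left ?_ ?_) r4⟩
  · have : 0 ≤ r * d2 := by positivity
    linarith only [this]
  · linarith only [h3]
  · positivity

end Vale.Agent.P146.H457
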