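import Vale.Agent.P146.H457.IntL4
import Vale.Agent.P146.H444.GlueL

/-!
# P146: `RowLBox` (helper457)
-/

namespace Vale.Agent.P146.H457

open Vale.Agent.P146.U

/-- **The rows of the lower grid under the box.** -/
theorem rowLBox {β : ℝ} (hβ : 1 < β) (h2 : Ex2Out β) (hL : LStar β) : H444.RowLBox β :=
  rowLBox' hβ h2 hL

end Vale.Agent.P146.H457
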